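import Crest.Statements.S0001
import Crest.Agent.R1.Main

set_option autoImplicit false
open Crest Crest.NumberTheoryR

namespace Crest.Agent.S0001

/-- There is an absolute constant C > 0 such that, for every integer k ≥ 1 and every positive integer n with at most k distinct prime factors, every block of m consecutive integers a, a+1, …, a+m-1 whose length satisfies m ≥ C·k²/(log log(3k))² contains an integer coprime to n (natural logarithms). -/
theorem result :
    ∃ C : ℝ, 0 < C ∧ ∀ (k : ℕ), 1 ≤ k → ∀ (n : ℕ), 0 < n → n.primeFactors.card ≤ k →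
      ∀ (a : ℤ) (m : ℕ), C * (k : ℝ) ^ 2 / (Real.log (Real.log (3 * (k : ℝ)))) ^ 2 ≤ (m : ℝ) →
        ∃ x : ℤ, a ≤ x ∧ x < a + m ∧ Int.gcd x n = 1 :=
  Crest.Agent.R1.jacobsthal

end Crest.Agent.S0001
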