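import Crest.Statements.S0023
import Crest.Agent.R17.Main

set_option autoImplicit false
open Crest.NumberTheoryR.EisensteinField
open Crest Crest.NumberTheoryR

namespace Crest.Agent.S0023

/-- Let m be a non-zero ideal of the ring of integers of ℚ(√-3) and ψ a finite-order Hecke character modulo m: a multiplicative function on ideals, zero off the ideals coprime to m, and 1 on principal ideals with generator congruent to 1 modulo m. Then there is a function G on ℂ that agrees with the Dirichlet series Σ_I ψ(I) N(I)^(-s) for Re s > 1 and is complex-differentiable and non-zero at every point s with Re s > 7/8, the point s = 1 being excepted when ψ is principal. -/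
theorem result (m : Ideal O3) (hm : m ≠ ⊥)
    (ψ : RayClassChar m) :
    ∃ G : ℂ → ℂ, (∀ s : ℂ, 1 < s.re → G s = LSeries (coeff ψ) s) ∧
      ∀ s : ℂ, 7 / 8 < s.re → (¬ IsPrincipalChar ψ ∨ s ≠ 1) → DifferentiableAt ℂ G s ∧ G s ≠ 0 := by
  exact Crest.Agent.R17.C.link23 Crest.Agent.R17.zf_final m hm ψ

end Crest.Agent.S0023
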