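import Crest.Statements.S0042
import Crest.Agent.R32.Final

set_option autoImplicit false
open Crest Crest.CombinatoricsR

namespace Crest.Agent.S0042

/-- There are real constants η > 0 and c > 0 and a threshold n₀ such that for every natural number n ≥ n₀ some n points of the closed unit square have the property that every triangle with three distinct vertices among them has area at least c · n ^ (-2 + η). The area of the triangle p q r is half the absolute value of the determinant of q - p and r - p. -/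
theorem result :
    ∃ η : ℝ, 0 < η ∧ ∃ c : ℝ, 0 < c ∧ ∃ n₀ : ℕ, ∀ n : ℕ, n₀ ≤ n →
      ∃ P : Finset (ℝ × ℝ), P.card = n ∧
        (∀ p ∈ P, 0 ≤ p.1 ∧ p.1 ≤ 1 ∧ 0 ≤ p.2 ∧ p.2 ≤ 1) ∧
        ∀ p ∈ P, ∀ q ∈ P, ∀ r ∈ P, p ≠ q → p ≠ r → q ≠ r →
          c * (n : ℝ) ^ (-2 + η) ≤ |(q.1 - p.1) * (r.2 - p.2) - (q.2 - p.2) * (r.1 - p.1)| / 2 := by
  classical
  obtain ⟨a, ha, C, hC, P0, H⟩ := Crest.Agent.R32.family
  have haR : (0 : ℝ) < a := by exact_mod_cast ha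
  refine ⟨1 / a, by positivity, 1 / (C * 4 ^ a), by positivity, (P0 + 1) ^ a + 1, fun n hn => ?_⟩
  have hex : ∃ P : ℕ, n ≤ P ^ a := ⟨n, Nat.le_self_pow ha.ne' n⟩
  set P := Nat.find hex with hP
  have h1 : n ≤ P ^ a := Nat.find_spec hex
  have h2 : P0 + 1 < P := by
    by_contra hc
    have := Nat.pow_le_pow_left (not_lt.1 hc) a
    omega
  have h3 : (P - 1) ^ a < n := not_le.1 (Nat.find_min hex (by omega))
  have h4 : P ^ a ≤ 2 ^ a * n := by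
    calc P ^ a ≤ (2 * (P - 1)) ^ a := Nat.pow_le_pow_left (by omega) a
      _ = 2 ^ a * (P - 1) ^ a := mul_pow _ _ _
      _ ≤ 2 ^ a * n := Nat.mul_le_mul_left _ h3.le
  obtain ⟨S, hS1, hS2, hS3⟩ := H P (by omega)
  obtain ⟨S', hS', hc⟩ := Finset.exists_subset_card_eq (h1.trans hS1)
  refine ⟨S', hc, fun p hp => hS2 p (hS' hp), fun p hp q hq r hr e1 e2 e3 =>
    le_trans ?_ (hS3 p (hS' hp) q (hS' hq) r (hS' hr) e1 e2 e3)⟩
  have hn0 : (0 : ℝ) < n := by exact_mod_cast (show 0 < n by omega)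
  have hP0 : (0 : ℝ) < P := by exact_mod_cast (show 0 < P by omega)
  have h5 : (n : ℝ) ^ ((1 : ℝ) / a) ≤ P := by
    have h6 : (n : ℝ) ≤ (P : ℝ) ^ a := by exact_mod_cast h1
    calc (n : ℝ) ^ ((1 : ℝ) / a) ≤ ((P : ℝ) ^ a) ^ ((1 : ℝ) / a) :=
          Real.rpow_le_rpow hn0.le h6 (by positivity)
      _ = P := by rw [one_div, Real.pow_rpow_inv_natCast hP0.le ha.ne']
  have h7 : ((P : ℝ) ^ a) ^ 2 ≤ 4 ^ a * (n : ℝ) ^ 2 := by
    have h8 : (P : ℝ) ^ a ≤ 2 ^ a * n := by exact_mod_cast h4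
    calc ((P : ℝ) ^ a) ^ 2 ≤ (2 ^ a * n) ^ 2 := pow_le_pow_left₀ (by positivity) h8 2
      _ = 4 ^ a * (n : ℝ) ^ 2 := by
        rw [mul_pow, ← pow_mul, mul_comm a 2, pow_mul]; norm_num
  have h9 : (n : ℝ) ^ (-2 + 1 / (a : ℝ)) = (n : ℝ) ^ ((1 : ℝ) / a) / (n : ℝ) ^ 2 := by
    rw [Real.rpow_add hn0, Real.rpow_neg hn0.le, Real.rpow_two]
    field_simp
  rw [h9]
  calc 1 / (C * 4 ^ a) * ((n : ℝ) ^ ((1 : ℝ) / a) / (n : ℝ) ^ 2)
      = (n : ℝ) ^ ((1 : ℝ) / a) / (C * (4 ^ a * (n : ℝ) ^ 2)) := by field_simp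
    _ ≤ P / (C * ((P : ℝ) ^ a) ^ 2) := by gcongr

end Crest.Agent.S0042
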