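import Crest.Statements.S0085
import Crest.Agent.R63.GS7

set_option autoImplicit false
open Crest Crest.CombinatoricsR

namespace Crest.Agent.S0085

/-- For every real C > 0 there are a natural number n, a Boolean function f on the n-dimensional Boolean cube and a natural number d such that: f is non-constant; every Fourier–Walsh coefficient of f (values and inputs read as signs +1 for true and -1 for false, averaged over the uniform cube) indexed by a set of more than d coordinates vanishes, so f has degree at most d; and the sum of the n singleton Fourier–Walsh coefficients of f exceeds C times the square root of d. -/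
theorem result (C : ℝ) (hC : 0 < C) :
    ∃ n : ℕ, ∃ f : (Fin n → Bool) → Bool, ∃ d : ℕ,
      (∃ x y, f x ≠ f y) ∧
      (∀ S : Finset (Fin n), d < S.card →
        ∑ x : Fin n → Bool, ((if f x then (1 : ℝ) else -1) * ∏ i ∈ S, (if x i then (1 : ℝ) else -1)) = 0) ∧
      C * Real.sqrt d <
        ∑ i : Fin n, (∑ x : Fin n → Bool, ((if f x then (1 : ℝ) else -1) * (if x i then (1 : ℝ) else -1))) / 2 ^ n := by
  obtain ⟨ι, _, _, f, d, hlow, hL⟩ := R63.main_aux C
  let e : ι ≃ Fin (Fintype.card ι) := Fintype.equivFin ι
  let E : (Fin (Fintype.card ι) → Bool) ≃ (ι → Bool) := Equiv.arrowCongr e.symm (Equiv.refl Bool)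
  have hE : ∀ x i, E x i = x (e i) := fun x i => rfl
  refine ⟨Fintype.card ι, fun x => f (E x), d, ?_, ?_, ?_⟩
  · by_contra hc
    push Not at hc
    have h1 : ∀ x, f x = f (E (fun _ => true)) := fun x => by
      have := hc (E.symm x) (fun _ => true)
      simpa using this
    simp only [h1] at hL
    rw [R63.Ex_mul_const, R63.mom1' R63.sg R63.Ex_half_sg, zero_mul] at hL
    have : 0 ≤ C * Real.sqrt d := by positivity
    linarith
  · intro S hS
    have := hlow (fun k a => if e k ∈ S then R63.sg a else 1) (S.map e.symm.toEmbedding)
      (by simpa using hS) (fun k hk => by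
        have : e k ∈ S := by simpa using hk
        simp [this, R63.sg])
    rw [← this]
    refine Fintype.sum_equiv E _ _ fun x => ?_
    congr 1
    simp only [hE]
    rw [Equiv.prod_comp e (fun j => if j ∈ S then R63.sg (x j) else 1), Finset.prod_ite_mem,
      Finset.univ_inter]
    rfl
  · refine hL.trans_le (le_of_eq ?_)
    rw [← Finset.sum_div, Finset.sum_comm, Finset.sum_div]
    unfold R63.Ex
    symm
    refine Fintype.sum_equiv E _ _ fun x => ?_
    simp only [R63.pw, R63.half, R63.tot, hE, Finset.prod_const, Finset.card_univ]
    rw [Equiv.sum_comp e (fun j => R63.sg (x j)), ← Finset.mul_sum]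
    simp only [R63.sg]
    rw [one_div, inv_pow]
    field_simp

end Crest.Agent.S0085
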