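import Crest.Statements.S0100
import Crest.Agent.R75.Spencer
import Crest.Agent.R75.TrigSpencer
import Crest.Agent.R75.Rounding
import Crest.Agent.R75.VdC
import Crest.Agent.R75.Gap
import Crest.Agent.R75.StatPhase
import Crest.Agent.R75.Kernel
import Crest.Agent.R75.Perfect
import Crest.Agent.R75.Power
import Crest.Agent.R75.Base
import Crest.Agent.R75.Square
import Crest.Agent.R75.Key
import Crest.Agent.R75.Glue
import Crest.Agent.R75.Tile
import Crest.Agent.R75.Pack

set_option autoImplicit false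
open Crest Crest.AnalysisR

namespace Crest.Agent.S0100

/-- For every real `ε` with `0 < ε < 1` there is a threshold `N₀` such that for every integer `N ≥ N₀` one can choose signs `c 0, …, c (N-1)` in `{-1, 1}` so that the polynomial `∑ k, c k * z ^ k` has modulus between `(1 - ε) * √N` and `(1 + ε) * √N` at every complex number `z` of modulus one. -/
theorem result (ε : ℝ) (hε : 0 < ε)
    (hε₁ : ε < 1) :
    ∃ N₀ : ℕ, ∀ N ≥ N₀, ∃ c : Fin N → ℤˣ, ∀ z : ℂ, ‖z‖ = 1 →
      (1 - ε) * Real.sqrt N ≤ ‖∑ k : Fin N, ((c k : ℤ) : ℂ) * z ^ (k : ℕ)‖ ∧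
        ‖∑ k : Fin N, ((c k : ℤ) : ℂ) * z ^ (k : ℕ)‖ ≤ (1 + ε) * Real.sqrt N := by
  have hT : R75.TrigSpencerStmt := R75.trigSpencer_of R75.spencer
  have hS : R75.StatPhaseStmt := R75.statPhase_of R75.vdc1
  have hB : R75.BaseStmt := R75.base_of hS R75.kernel (R75.flatten_of hT)
  have hK : R75.KeyStmt := R75.key_of (R75.power_of R75.perfect hB) (R75.square_of hT)
  have hG : R75.GlueStmt := R75.glue_of (R75.gap_of R75.vdc1 R75.vdc2) R75.kernel
  exact R75.main_of hT (R75.flatReal_of hS R75.vdc2 hK R75.pack hG) ε hε hε₁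

end Crest.Agent.S0100
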