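import Crest.Statements.S0133
import Crest.Agent.R101.Euclid

set_option autoImplicit false
open MeasureTheory
open scoped Gradient
open Crest Crest.AnalysisR Crest.AnalysisR.PDE

namespace Crest.Agent.S0133

/-- Let Ω ⊆ ℝ² be a nonempty bounded simply connected open set with smooth boundary, and let u be a function that is C¹ on Ω with u² and ‖∇u‖² integrable on Ω, has mean zero on Ω, is not identically zero there, and minimises the Rayleigh quotient ∫‖∇v‖² / ∫v² among all such mean-zero v (so u is an eigenfunction for the first positive Neumann eigenvalue of Ω, and every such eigenfunction arises this way). Then the gradient of u vanishes at no point of Ω. -/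
theorem result
    (Ω : Set (EuclideanSpace ℝ (Fin 2))) (hopen : IsOpen Ω) (hne : Ω.Nonempty)
    (hbdd : Bornology.IsBounded Ω) (hsc : IsSimplyConnected Ω)
    (hbdry : Crest.AnalysisR.PDE.HasSmoothBoundary Ω)
    (u : EuclideanSpace ℝ (Fin 2) → ℝ) (hu : ContDiffOn ℝ 1 u Ω)
    (huL2 : IntegrableOn (fun x => u x ^ 2) Ω) (hgradL2 : IntegrableOn (fun x => ‖∇ u x‖ ^ 2) Ω)
    (hmean : ∫ x in Ω, u x = 0) (hnz : ∃ x ∈ Ω, u x ≠ 0)
    (hmin : ∀ v : EuclideanSpace ℝ (Fin 2) → ℝ, ContDiffOn ℝ 1 v Ω →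
      IntegrableOn (fun x => v x ^ 2) Ω → IntegrableOn (fun x => ‖∇ v x‖ ^ 2) Ω →
      ∫ x in Ω, v x = 0 →
      (∫ x in Ω, ‖∇ u x‖ ^ 2) * (∫ x in Ω, v x ^ 2) ≤ (∫ x in Ω, ‖∇ v x‖ ^ 2) * (∫ x in Ω, u x ^ 2)) :
    ∀ x ∈ Ω, ∇ u x ≠ 0 :=
  Crest.Agent.R101.euclid Ω hopen hbdd hsc u hu huL2 hgradL2 hmean hnz hmin

end Crest.Agent.S0133
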