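import Crest.Statements.S0140
import Crest.Agent.R106.Fin
import Crest.Agent.R106.A.Pass

set_option autoImplicit false
open MeasureTheory
open scoped ContDiff
open Crest.AnalysisR.VecCalc3 Crest.AnalysisR.PDE.RVM
open Crest Crest.AnalysisR Crest.AnalysisR.PDE Crest.AnalysisR.PDE.RVM

namespace Crest.Agent.S0140

/-- For every smooth admissible datum of the one-species relativistic Vlasov–Maxwell system in three space dimensions (a nonnegative smooth compactly supported particle density; smooth square-integrable fields with every derivative bounded; the two divergence constraints), there are f, E, B forming a classical solution on [0, T) for every T > 0, infinitely differentiable on [0, ∞) × ℝ³ × ℝ³ and [0, ∞) × ℝ³, and agreeing on [0, T) with every classical solution on [0, T) that has the same datum. -/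
theorem result
    (f₀ : R3 → R3 → ℝ) (E₀ B₀ : R3 → R3) (h : IsAdmissibleDatum f₀ E₀ B₀) :
    ∃ f : ℝ → R3 → R3 → ℝ, ∃ E B : ℝ → R3 → R3,
      (∀ T : ℝ, 0 < T → IsClassicalSolutionOn T f₀ E₀ B₀ f E B) ∧
      ContDiffOn ℝ ∞ (fun p : ℝ × R3 × R3 => f p.1 p.2.1 p.2.2) (Set.Ici 0 ×ˢ Set.univ) ∧
      ContDiffOn ℝ ∞ (fun p : ℝ × R3 => E p.1 p.2) (Set.Ici 0 ×ˢ Set.univ) ∧
      ContDiffOn ℝ ∞ (fun p : ℝ × R3 => B p.1 p.2) (Set.Ici 0 ×ˢ Set.univ) ∧
      ∀ T : ℝ, 0 < T → ∀ (f' : ℝ → R3 → R3 → ℝ) (E' B' : ℝ → R3 → R3),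
        IsClassicalSolutionOn T f₀ E₀ B₀ f' E' B' →
        ∀ t ∈ Set.Ico 0 T, f' t = f t ∧ E' t = E t ∧ B' t = B t :=
  Crest.Agent.R106.assembly Crest.Agent.R106.s_flow Crest.Agent.R106.s_liou Crest.Agent.R106.s_tr
    (Crest.Agent.R106.s_ap_of_pass Crest.Agent.R106.A.s_pass) Crest.Agent.R106.s_cl Crest.Agent.R106.s_uni f₀ E₀ B₀ h

end Crest.Agent.S0140
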