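import Crest.Statements.S0180
import Crest.Agent.R132.Main
import Crest.Agent.R132.SDP

set_option autoImplicit false
open scoped ComplexOrder
open Crest.AnalysisR.NumRange
open Crest Crest.AnalysisR Crest.AnalysisR.NumRange

namespace Crest.Agent.S0180

/-- Let A be an n × n complex matrix, n ≥ 1, whose numerical range lies in a bounded open convex set Ω, and let f be holomorphic and injective on an open set containing the closure of Ω with f(Ω) the open unit disc. Realise T = f(A) as p(A) for any polynomial p agreeing with f to order n on the spectrum of A. Then the metric problem for T (H with I ≼ H ≼ τ I and Tᴴ H T ≼ H) is strictly feasible, and its least τ is attained and lies between 1 and 4. -/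
theorem result
    (n : ℕ) (hn : 1 ≤ n) (A : Matrix (Fin n) (Fin n) ℂ)
    (Ω U : Set ℂ) (hΩ₁ : IsOpen Ω) (hΩ₂ : Bornology.IsBounded Ω) (hΩ₃ : Convex ℝ Ω)
    (hU : IsOpen U) (hΩU : closure Ω ⊆ U)
    (f : ℂ → ℂ) (hf₁ : DifferentiableOn ℂ f U) (hf₂ : Set.InjOn f U)
    (hf₃ : f '' Ω = Metric.ball 0 1)
    (hA : numRange A ⊆ Ω) (p : Polynomial ℂ) (hp : AgreesOnSpectrum A f p) :
    (∃ (H : Matrix (Fin n) (Fin n) ℂ) (τ : ℝ), MetricStrictlyFeasible (Polynomial.aeval A p) H τ) ∧
    ∃ (H : Matrix (Fin n) (Fin n) ℂ) (κsq : ℝ),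
      IsOptimalMetric (Polynomial.aeval A p) H κsq ∧ 1 ≤ κsq ∧ κsq ≤ 4 := by
  set A' := Matrix.toEuclideanCLM (n := Fin n) (𝕜 := ℂ) A with hA'
  have hnr : Crest.Agent.R132.nr A' = numRange A := Crest.Agent.R132.nr_toEuclideanCLM A
  have hKc : IsCompact (numRange A) := hnr ▸ Crest.Agent.R132.isCompact_nr A'
  have hKv : Convex ℝ (numRange A) := hnr ▸ Crest.Agent.R132.convex_nr A'
  obtain ⟨δ, hδ, hδΩ⟩ := hKc.exists_cthickening_subset_open hΩ₁ hA
  have hΩU' : Ω ⊆ U := subset_closure.trans hΩU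
  have hfΩ : DifferentiableOn ℂ f Ω := hf₁.mono hΩU'
  have hK' : IsCompact (Metric.cthickening δ (numRange A)) := hKc.cthickening
  obtain ⟨r, hr0, hr1, hr⟩ : ∃ r : ℝ, 0 ≤ r ∧ r < 1 ∧
      ∀ z ∈ Metric.cthickening δ (numRange A), ‖f z‖ ≤ r := by
    rcases (Metric.cthickening δ (numRange A)).eq_empty_or_nonempty with h | h
    · exact ⟨0, le_rfl, zero_lt_one, by simp [h]⟩
    · obtain ⟨z₀, hz₀, hmax⟩ := hK'.exists_isMaxOn h (f := fun z => ‖f z‖)
        (hfΩ.continuousOn.mono hδΩ).norm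
      refine ⟨‖f z₀‖, norm_nonneg _, ?_, fun z hz => hmax hz⟩
      have : f z₀ ∈ Metric.ball (0 : ℂ) 1 := hf₃ ▸ Set.mem_image_of_mem f (hδΩ hz₀)
      simpa using this
  have hsub : Metric.thickening δ (numRange A) ⊆ Ω :=
    (Metric.thickening_subset_cthickening δ _).trans hδΩ
  have hrep : Crest.Agent.R132.Rep (Metric.thickening δ (numRange A)) A.charpoly f p :=
    (Crest.Agent.R132.rep_of_agrees A hΩ₁
      ((Crest.Agent.R132.spectrum_subset_numRange A).trans hA) hfΩ hp).mono hsub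
  have haeval : ∀ q : Polynomial ℂ, Polynomial.aeval A' q =
      Matrix.toEuclideanCLM (n := Fin n) (𝕜 := ℂ) (Polynomial.aeval A q) := fun q =>
    Polynomial.aeval_algHom_apply (Matrix.toEuclideanCLM (n := Fin n) (𝕜 := ℂ)) A q
  have hχ : Polynomial.aeval A' A.charpoly = 0 := by
    rw [haeval, Matrix.aeval_self_charpoly, map_zero]
  have hCB : Crest.Agent.R132.CompleteBound
      (Matrix.toEuclideanCLM (n := Fin n) (𝕜 := ℂ) (Polynomial.aeval A p)) n r 2 := by
    intro d B M hM v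
    rw [← haeval]
    refine Crest.Agent.R132.crouzeix_comp A' Metric.isOpen_thickening (hKv.thickening δ)
      (hnr ▸ Metric.self_subset_thickening hδ _) hχ hrep n d B M ?_ v
    intro z hz
    exact hM _ (hr z (Metric.thickening_subset_cthickening δ _ hz))
  have hfeas : ∀ τ : ℝ, 4 < τ → ∃ H, MetricStrictlyFeasible (Polynomial.aeval A p) H τ :=
    fun τ hτ => Crest.Agent.R132.strictlyFeasible_of_completeBound _ r 2 hr0 hr1 hCB τ
      (by linarith)
  refine ⟨?_, Crest.Agent.R132.exists_optimal_of_strictlyFeasible hn _ 4 hfeas⟩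
  obtain ⟨H, hH⟩ := hfeas 5 (by norm_num)
  exact ⟨H, 5, hH⟩

end Crest.Agent.S0180
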