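import Crest.Statements.S0181
import Crest.Agent.R132.PoissonAux

set_option autoImplicit false
open scoped ComplexOrder
open Crest.AnalysisR.NumRange
open Crest Crest.AnalysisR Crest.AnalysisR.NumRange

namespace Crest.Agent.S0181

/-- Setting of the optimal-metric statement; also G is holomorphic and injective on {t : r < ‖t‖} for some r < 1 with G({t : 1 < ‖t‖}) the complement of the closure of Ω, (H, κ²) is an optimal metric pair for f(A), and S ≽ 0 with S² = H. Then one continuous 2π-periodic positive semidefinite density Λ of mean I gives, for all m ≥ 1 and m × m matrix-valued v holomorphic near the closure of Ω, v[SAS⁻¹] = (1/2π) ∫ Λ(θ) ⊗ v(G(e^{iθ})) dθ entrywise, and ‖v[A]‖ ≤ κ sup ‖v‖ over the closure of Ω. -/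
theorem result
    (n : ℕ) (hn : 1 ≤ n) (A : Matrix (Fin n) (Fin n) ℂ)
    (Ω U : Set ℂ) (hΩ₁ : IsOpen Ω) (hΩ₂ : Bornology.IsBounded Ω) (hΩ₃ : Convex ℝ Ω)
    (hU : IsOpen U) (hΩU : closure Ω ⊆ U)
    (f : ℂ → ℂ) (hf₁ : DifferentiableOn ℂ f U) (hf₂ : Set.InjOn f U)
    (hf₃ : f '' Ω = Metric.ball 0 1)
    (G : ℂ → ℂ) (r : ℝ) (hr₁ : 0 < r) (hr₂ : r < 1)
    (hG₁ : DifferentiableOn ℂ G {t : ℂ | r < ‖t‖}) (hG₂ : Set.InjOn G {t : ℂ | r < ‖t‖})
    (hG₃ : G '' {t : ℂ | 1 < ‖t‖} = (closure Ω)ᶜ)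
    (hA : numRange A ⊆ Ω) (p : Polynomial ℂ) (hp : AgreesOnSpectrum A f p)
    (H : Matrix (Fin n) (Fin n) ℂ) (κsq : ℝ) (hH : IsOptimalMetric (Polynomial.aeval A p) H κsq)
    (S : Matrix (Fin n) (Fin n) ℂ) (hS₁ : S.PosSemidef) (hS₂ : S * S = H) :
    ∃ Λ : ℝ → Matrix (Fin n) (Fin n) ℂ, Continuous Λ ∧ Function.Periodic Λ (2 * Real.pi) ∧
      (∀ θ, (Λ θ).PosSemidef) ∧
      (∀ a b, (2 * Real.pi : ℂ)⁻¹ * (∫ θ in (0 : ℝ)..2 * Real.pi, Λ θ a b)
        = (1 : Matrix (Fin n) (Fin n) ℂ) a b) ∧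
      ∀ (m : ℕ), 1 ≤ m → ∀ (V : Set ℂ), IsOpen V → closure Ω ⊆ V →
        ∀ v : ℂ → Matrix (Fin m) (Fin m) ℂ, (∀ c d, DifferentiableOn ℂ (fun z => v z c d) V) →
        ∀ q : Fin m → Fin m → Polynomial ℂ,
          (∀ c d, AgreesOnSpectrum A (fun z => v z c d) (q c d)) →
          (∀ a b c d, Polynomial.aeval (S * A * S⁻¹) (q c d) a b =
              (2 * Real.pi : ℂ)⁻¹ * (∫ θ in (0 : ℝ)..2 * Real.pi,
                Λ θ a b * v (G (Complex.exp ((θ : ℂ) * Complex.I))) c d)) ∧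
          ∀ M : ℝ, (∀ z ∈ closure Ω, ‖Matrix.toEuclideanCLM (n := Fin m) (𝕜 := ℂ) (v z)‖ ≤ M) →
            ‖Matrix.toEuclideanCLM (n := Fin n × Fin m) (𝕜 := ℂ)
                (Matrix.of fun (i : Fin n × Fin m) (j : Fin n × Fin m) =>
                  Polynomial.aeval A (q i.2 j.2) i.1 j.1)‖ ≤ Real.sqrt κsq * M := by
  have hne : Nonempty (Fin n) := ⟨⟨0, hn⟩⟩
  obtain ⟨⟨hH₁, hH₂, hH₃⟩, -⟩ := hH
  have hS : IsUnit S.det := R132.pa_isUnit_det hS₂ hH₁
  have hspec : spectrum ℂ A ⊆ Ω := (R132.spectrum_subset_numRange A).trans hA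
  set T := Polynomial.aeval A p with hT
  have hTspec : spectrum ℂ T ⊆ Metric.ball 0 1 := by
    rw [hT, spectrum.map_polynomial_aeval_of_nonempty A p
      (spectrum.nonempty_of_isAlgClosed_of_finiteDimensional ℂ A), ← hf₃]
    rintro _ ⟨μ, hμ, rfl⟩
    refine ⟨μ, hspec hμ, ?_⟩
    have := hp μ hμ 0 hn
    simpa using this.symm
  have hdet := R132.pa_det_ne hTspec hS
  have hcontr := R132.pa_contraction hS₁ hS₂ hS hH₃
  set T' := S * T * S⁻¹ with hT'
  have hopen : IsOpen {t : ℂ | r < ‖t‖} := isOpen_lt continuous_const continuous_norm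
  have hGm : ∀ t : ℂ, ‖t‖ = 1 → G t ∈ closure Ω ∧ G t ∉ Ω := fun t ht =>
    R132.pa_G_mem hΩ₁ hr₂ hG₁ hG₂ hG₃ ht
  have hO : IsOpen ({t : ℂ | r < ‖t‖} ∩ G ⁻¹' U) := hG₁.continuousOn.isOpen_inter_preimage hopen hU
  have hsph : ∀ t ∈ Metric.sphere (0 : ℂ) 1, ‖t‖ = 1 := fun t ht => by simpa using ht
  have hsr : ∀ t ∈ Metric.sphere (0 : ℂ) 1, t ∈ {t : ℂ | r < ‖t‖} := fun t ht => by
    simp [hsph t ht, hr₂]
  have hsO : Metric.sphere (0 : ℂ) 1 ⊆ {t : ℂ | r < ‖t‖} ∩ G ⁻¹' U := fun t ht =>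
    ⟨hsr t ht, hΩU (hGm t (hsph t ht)).1⟩
  have hψ : DifferentiableOn ℂ (f ∘ G) ({t : ℂ | r < ‖t‖} ∩ G ⁻¹' U) :=
    hf₁.comp (hG₁.mono Set.inter_subset_left) fun t ht => ht.2
  have hnorm : ∀ t ∈ Metric.sphere (0 : ℂ) 1, ‖(f ∘ G) t‖ = 1 := fun t ht =>
    le_antisymm (R132.pa_f_le hΩU hf₁ hf₃ (hGm t (hsph t ht)).1)
      (R132.pa_f_ge hΩU hf₂ hf₃ (hsO ht).2 (hGm t (hsph t ht)).2)
  obtain ⟨w, hwc, hwp, hwn, hw⟩ := R132.exists_circle_density hO hsO hψ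
    (fun a ha b hb h => hG₂ (hsr a ha) (hsr b hb) (hf₂ (hsO ha).2 (hsO hb).2 h)) hnorm
    (fun t ht h1 => R132.pa_f_ge hΩU hf₂ hf₃ ht.2 (fun h => by
      have h2 : G t ∈ (closure Ω)ᶜ := by
        rw [← hG₃]
        exact ⟨t, h1, rfl⟩
      exact h2 (subset_closure h)))
  have hΨc : Continuous fun θ : ℝ => (f ∘ G) (Complex.exp ((θ : ℂ) * Complex.I)) :=
    hψ.continuousOn.comp_continuous R132.pc_continuous_exp fun θ => hsO (R132.pc_exp_mem θ)
  have hΨm : ∀ θ : ℝ, (f ∘ G) (Complex.exp ((θ : ℂ) * Complex.I)) ∈ Metric.sphere (0 : ℂ) 1 :=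
    fun θ => by simpa using hnorm _ (R132.pc_exp_mem θ)
  set Λ : ℝ → Matrix (Fin n) (Fin n) ℂ := fun θ =>
    (w θ : ℂ) • R132.pois T' ((f ∘ G) (Complex.exp ((θ : ℂ) * Complex.I))) with hΛ
  have hΛc : Continuous Λ := by
    refine (Complex.continuous_ofReal.comp hwc).smul (continuous_matrix fun i j => ?_)
    exact (R132.pois_continuousOn hdet i j).comp_continuous hΨc hΨm
  have hΛp : ∀ θ, (Λ θ).PosSemidef := fun θ =>
    (R132.pois_posSemidef hcontr (hsph _ (hΨm θ)) (hdet _ (hsph _ (hΨm θ)).le)).smul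
      (Complex.zero_le_real.2 (hwn θ))
  have key : ∀ g : ℂ → ℂ, ContinuousOn g (Metric.sphere 0 1) → ∀ a b,
      (2 * Real.pi : ℂ)⁻¹ * (∫ θ in (0 : ℝ)..2 * Real.pi,
        Λ θ a b * g ((f ∘ G) (Complex.exp ((θ : ℂ) * Complex.I)))) =
      R132.mavg (fun θ => g (Complex.exp ((θ : ℂ) * Complex.I)) •
        R132.pois T' (Complex.exp ((θ : ℂ) * Complex.I))) a b := by
    intro g hg a b
    have h1 := hw (fun z => g z * R132.pois T' z a b) (hg.mul (R132.pois_continuousOn hdet a b))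
    simp only [R132.mavg, Matrix.of_apply, Matrix.smul_apply, smul_eq_mul]
    rw [← h1]
    congr 1
    apply intervalIntegral.integral_congr
    intro θ _
    simp only [hΛ, Matrix.smul_apply, smul_eq_mul]
    ring
  have hmean : ∀ a b, (2 * Real.pi : ℂ)⁻¹ * (∫ θ in (0 : ℝ)..2 * Real.pi, Λ θ a b)
      = (1 : Matrix (Fin n) (Fin n) ℂ) a b := by
    intro a b
    have h1 := key (fun _ => 1) continuousOn_const a b
    rw [R132.mavg_pois hdet (differentiableOn_const 1), R132.cauI_one hdet] at h1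
    simpa using h1
  refine ⟨Λ, hΛc, ?_, hΛp, hmean, ?_⟩
  · intro θ
    simp only [hΛ, hwp θ]
    push_cast
    rw [add_mul, Complex.exp_add, Complex.exp_two_pi_mul_I, mul_one]
  intro m _ V hV hΩV v hv q hq
  have hrep : ∀ a b c d, Polynomial.aeval (S * A * S⁻¹) (q c d) a b =
      (2 * Real.pi : ℂ)⁻¹ * (∫ θ in (0 : ℝ)..2 * Real.pi,
        Λ θ a b * v (G (Complex.exp ((θ : ℂ) * Complex.I))) c d) := by
    intro a b c d
    have hW : IsOpen (U ∩ V) := hU.inter hV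
    have hcl : closure Ω ⊆ U ∩ V := Set.subset_inter hΩU hΩV
    obtain ⟨g, g₁, s, hg, hg₁, hgv, hs, hqs⟩ := R132.pa_transfer A hW
      (hspec.trans (subset_closure.trans hcl)) (hf₁.mono Set.inter_subset_left)
      (hf₂.mono Set.inter_subset_left) hp ((hv c d).mono Set.inter_subset_right) (hq c d)
    have hball : Metric.closedBall (0 : ℂ) 1 ⊆ f '' (U ∩ V) :=
      (R132.pa_closedBall_subset hΩ₂ hΩU hf₁ hf₃).trans (Set.image_mono hcl)
    have hχ : Polynomial.aeval T' T.charpoly = 0 := by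
      rw [hT', R132.pa_aeval_conj hS, Matrix.aeval_self_charpoly]
      simp
    have h1 := key g (hg.continuousOn.mono (Metric.sphere_subset_closedBall.trans hball)) a b
    rw [R132.mavg_pois_rep hdet (hg₁.mono hball) hχ (fun z hz => hs z (hball hz)), hT',
      R132.pa_aeval_conj hS, ← hqs, ← R132.pa_aeval_conj hS] at h1
    rw [← h1]
    congr 1
    apply intervalIntegral.integral_congr
    intro θ _
    simp only [Function.comp]
    rw [hgv _ (hcl (hGm _ (R132.pc_norm_exp θ)).1)]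
  refine ⟨hrep, fun M hM => ?_⟩
  have hM0 : 0 ≤ M := le_trans (norm_nonneg _) (hM _ (hGm 1 (by simp)).1)
  have hGc : Continuous fun θ : ℝ => G (Complex.exp ((θ : ℂ) * Complex.I)) :=
    hG₁.continuousOn.comp_continuous R132.pc_continuous_exp fun θ => hsr _ (R132.pc_exp_mem θ)
  have hvc : Continuous fun θ : ℝ => v (G (Complex.exp ((θ : ℂ) * Complex.I))) :=
    continuous_matrix fun c d => (hv c d).continuousOn.comp_continuous hGc
      fun θ => hΩV (hGm _ (R132.pc_norm_exp θ)).1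
  have hmean' : R132.mavg Λ = 1 := by
    ext a b
    exact hmean a b
  have h1 := R132.psd_mavg_kron hΛc hvc hΛp hmean' ((M ^ 2 : ℝ) : ℂ)
    (fun θ => R132.psd_of_norm_le _ (hM _ (hGm _ (R132.pc_norm_exp θ)).1))
  have h2 := R132.pa_norm_bound hS₁ hS₂ hH₁ hH₂ hM0 h1
  have h3 : (R132.mavg fun θ => Matrix.kroneckerMap (· * ·) (Λ θ)
      (v (G (Complex.exp ((θ : ℂ) * Complex.I)))))
      = Matrix.of fun (i j : Fin n × Fin m) =>
        Polynomial.aeval (S * A * S⁻¹) (q i.2 j.2) i.1 j.1 := by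
    ext ⟨a, c⟩ ⟨b, d⟩
    simp only [R132.mavg, Matrix.of_apply, Matrix.kroneckerMap_apply]
    exact (hrep a b c d).symm
  rw [h3, R132.pa_kron_conj S⁻¹ S (fun c d => Polynomial.aeval (S * A * S⁻¹) (q c d))] at h2
  have h4 : ∀ c d, S⁻¹ * Polynomial.aeval (S * A * S⁻¹) (q c d) * S
      = Polynomial.aeval A (q c d) := by
    intro c d
    rw [R132.pa_aeval_conj hS]
    simp only [Matrix.mul_assoc]
    rw [Matrix.nonsing_inv_mul _ hS, Matrix.mul_one, ← Matrix.mul_assoc,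
      Matrix.nonsing_inv_mul _ hS, Matrix.one_mul]
  simp only [h4] at h2
  exact h2

end Crest.Agent.S0181
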