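import Crest.Statements.S0185
import Crest.Agent.R135.Main
import Crest.Agent.R135.OTrans

set_option autoImplicit false
open MeasureTheory
open scoped ENNReal
open Crest.AnalysisR.PDE.OnePhase Crest.AnalysisR.PDE.MumfordShah
open Crest Crest.AnalysisR Crest.AnalysisR.PDE Crest.AnalysisR.PDE.MumfordShah

namespace Crest.Agent.S0185

/-- Let Ω ⊆ ℝ² be bounded open, g bounded measurable, and (u, K) a reduced absolute minimizer of the classical Mumford–Shah energy with datum g (K relatively closed of finite length, u Sobolev off K). Then near each of its points K is one C^{1,α} embedded arc through the point, one such arc ending there, or three such arcs leaving it at 120° and meeting only there (α > 0 may vary with the point), and only finitely many connected components of K meet any open set compactly contained in Ω. -/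
theorem result
    (Ω : Set (EuclideanSpace ℝ (Fin 2))) (hΩo : IsOpen Ω) (hΩb : Bornology.IsBounded Ω)
    (g : EuclideanSpace ℝ (Fin 2) → ℝ) (hgm : Measurable g) (hgb : ∃ M : ℝ, ∀ x ∈ Ω, ‖g x‖ ≤ M)
    (u : EuclideanSpace ℝ (Fin 2) → ℝ) (K : Set (EuclideanSpace ℝ (Fin 2)))
    (G : EuclideanSpace ℝ (Fin 2) → EuclideanSpace ℝ (Fin 2))
    (hmin : IsAbsoluteMinimizer Ω g u K G) (hred : IsReduced Ω K) :
    (∀ x ∈ K, IsArcInteriorPoint Ω K x ∨ IsArcEndPoint Ω K x ∨ IsTripleJunctionPoint Ω K x) ∧
      ∀ U : Set (EuclideanSpace ℝ (Fin 2)), IsOpen U → IsCompact (closure U) → closure U ⊆ Ω →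
        Set.Finite {C : Set (EuclideanSpace ℝ (Fin 2)) | ∃ x ∈ K ∩ U, C = connectedComponentIn K x} := by
  obtain ⟨M, hM⟩ := hgb
  have hraw := Crest.Agent.R135.raw_of_orig Ω hΩo hΩb g hgm hM u K G hmin hred
  have h1 : ∀ x ∈ K, IsArcInteriorPoint Ω K x ∨ IsArcEndPoint Ω K x ∨ IsTripleJunctionPoint Ω K x := by
    intro x hx
    refine Crest.Agent.R135.locStr_back (hraw.locStr ?_)
    simpa using hx
  exact ⟨h1, fun U _ hc hU => Crest.Agent.R135.finite_components hmin.1.2.1 h1 U hc hU⟩

end Crest.Agent.S0185
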