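import Crest.Statements.S0215
import Crest.Agent.R152.Main

set_option autoImplicit false
open Crest.ProbabilityR.SignMatrix
open Crest Crest.ProbabilityR

namespace Crest.Agent.S0215

/-- For symmetric n-by-n matrices whose entries on and above the diagonal are independent uniform random signs, the n-th root of the probability that the matrix is singular tends to 1/2 as n tends to infinity. The probability is the exact finite sum singularProb. -/
theorem result :
    Filter.Tendsto (fun n : ℕ => singularProb n (1 / 2) ^ (1 / (n : ℝ))) Filter.atTop (nhds (1 / 2)) := by
  have h := Crest.Agent.R152.main (1 / 2) (by norm_num) (by norm_num)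
  have e : Crest.Agent.R152.rho (1 / 2) = 1 / 2 := by norm_num [Crest.Agent.R152.rho]
  rwa [e] at h

end Crest.Agent.S0215
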