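import Crest.Statements.S0222
import Crest.Agent.R155.Thorp
import Crest.Agent.R155.Trace

set_option autoImplicit false
open Crest Crest.ProbabilityR

namespace Crest.Agent.S0222

/-- Shuffle a deck of `n = 2 * 2 ^ d` cards `1600 * (d + 1)` times, that is `1600 * log₂ n` times. The total variation distance between the law of the resulting arrangement of the whole deck and the uniform law on all arrangements tends to `0` as `d → ∞`. -/
theorem result :
    Filter.Tendsto (fun d : ℕ => Crest.ProbabilityR.Shuffle.tvFromUniform (2 ^ d) (1600 * (d + 1)))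
      Filter.atTop (nhds 0) := by
  have h8 : Filter.Tendsto (fun d : ℕ => 2 ^ (d - 2)) Filter.atTop Filter.atTop :=
    (tendsto_pow_atTop_atTop_of_one_lt (by norm_num : 1 < 2)).comp (Filter.tendsto_sub_atTop_nat 2)
  have hI : Filter.Tendsto (fun d : ℕ => R155.errI (2 ^ (d + 1))) Filter.atTop (nhds 0) := by
    refine (R155.errI_tendsto.comp h8).congr' ?_
    filter_upwards [Filter.eventually_ge_atTop 2] with d hd
    obtain ⟨e, rfl⟩ := Nat.exists_eq_add_of_le' hd
    simp only [Function.comp, Nat.add_sub_cancel]
    congr 1; ring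
  have hII : Filter.Tendsto (fun d : ℕ => R155.errII (2 ^ (d + 1))) Filter.atTop (nhds 0) :=
    R155.errII_tendsto.comp ((tendsto_pow_atTop_atTop_of_one_lt (by norm_num : 1 < 2)).comp
      (Filter.tendsto_add_atTop_nat 1))
  have hs : Filter.Tendsto (fun d : ℕ => 1 / 2 * Real.sqrt
      (2 * R155.errI (2 ^ (d + 1)) + R155.errII (2 ^ (d + 1)))) Filter.atTop (nhds 0) := by
    have := (((hI.const_mul 2).add hII).sqrt).const_mul (1 / 2)
    simpa using this
  refine squeeze_zero (fun d => ?_) (fun d => ?_) hs
  · unfold Crest.ProbabilityR.Shuffle.tvFromUniform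
    positivity
  · refine (R155.tv_le_sqrt d 1600).trans ?_
    have := R155.coll_le (d + 1) (by omega)
    gcongr
    linarith

end Crest.Agent.S0222
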