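import Crest.Statements.S0250
import Crest.Agent.R165.Glue.Main

set_option autoImplicit false
open Crest.ProbabilityR.IsingModel
open Crest Crest.ProbabilityR Crest.ProbabilityR.IsingModel

namespace Crest.Agent.S0250

/-- Planar Ising model (coupling J > 0) plus lam times an even finite-range square-symmetric potential. For some lam₀ > 0 and maps βc, Zs, Ze, continuous at 0 (βc(0) the unperturbed critical value, Zs(0) = Ze(0) = 1), when lam has size < lam₀: βc > 0, Zs·Ze ≠ 0, and at βc(lam) rescaled correlations of spins and centred bonds at distinct points, in C² Jordan domains (free, plus, minus b.c.) and the periodic plane state tend as mesh → 0 to Zs^n Ze^m times lam-free conformally covariant limits. -/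
theorem result
    (J : ℝ) (hJ : 0 < J) (R : ℕ) (V : Finset (ℤ × ℤ) → ℝ)
    (hVeven : ∀ A, V A ≠ 0 → Even A.card)
    (hVrange : ∀ A, V A ≠ 0 → ∀ x ∈ A, ∀ y ∈ A, |x.1 - y.1| ≤ (R : ℤ) ∧ |x.2 - y.2| ≤ (R : ℤ))
    (hVtrans : ∀ A (z : ℤ × ℤ), V (A.image fun x => x + z) = V A)
    (hVrot : ∀ A, V (A.image rotate) = V A) (hVrefl : ∀ A, V (A.image reflect) = V A) :
    ∃ lam₀ : ℝ, 0 < lam₀ ∧ ∃ βc Zs Ze : ℝ → ℝ,
      ContinuousAt βc 0 ∧ ContinuousAt Zs 0 ∧ ContinuousAt Ze 0 ∧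
      βc 0 = criticalBeta J ∧ Zs 0 = 1 ∧ Ze 0 = 1 ∧
      (∀ lam : ℝ, |lam| < lam₀ → 0 < βc lam ∧ Zs lam ≠ 0 ∧ Ze lam ≠ 0) ∧
      (∀ D : Set ℂ, IsC2JordanDomain D → ∀ (b : BoundaryCondition) (n m : ℕ), 1 ≤ n + m →
        ∀ (x : Fin n → ℂ) (y : Fin m → ℂ) (j : Fin m → Fin 2),
          (∀ i, x i ∈ D) → (∀ k, y k ∈ D) → Function.Injective (Fin.append x y) →
          ∃ F : ℝ, ∀ lam : ℝ, |lam| < lam₀ →
            Filter.Tendsto
              (fun a : ℝ => a ^ (-((n : ℝ) / 8 + m)) * domainMixedCorr D a b J lam R V (βc lam) x y j)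
              (nhdsWithin 0 (Set.Ioi 0)) (nhds (Zs lam ^ n * Ze lam ^ m * F))) ∧
      (∀ lam : ℝ, |lam| < lam₀ → ∀ (n m : ℕ) (us : Fin n → ℤ × ℤ) (vs : Fin m → ℤ × ℤ)
          (js : Fin m → Fin 2),
        Filter.Tendsto (fun L : ℕ => latticeMixedCorr L J lam R V (βc lam) us vs js) Filter.atTop
          (nhds (planeMixedCorr J lam R V (βc lam) us vs js))) ∧
      (∀ (n m : ℕ), 1 ≤ n + m → ∀ (x : Fin n → ℂ) (y : Fin m → ℂ) (j : Fin m → Fin 2),
        Function.Injective (Fin.append x y) →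
        ∃ F : ℝ, ∀ lam : ℝ, |lam| < lam₀ →
          Filter.Tendsto
            (fun a : ℝ => a ^ (-((n : ℝ) / 8 + m)) *
              planeMixedCorr J lam R V (βc lam) (fun i => meshIndex a (x i))
                (fun k => meshIndex a (y k)) j)
            (nhdsWithin 0 (Set.Ioi 0)) (nhds (Zs lam ^ n * Ze lam ^ m * F))) ∧
      (∃ C₀ : ℝ, C₀ ≠ 0 ∧ ∀ x y : ℂ, x ≠ y → ∀ lam : ℝ, |lam| < lam₀ →
        Filter.Tendsto
          (fun a : ℝ => a ^ (-(1 : ℝ) / 4) *
            planeMixedCorr J lam R V (βc lam) ![meshIndex a x, meshIndex a y] ![] ![])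
          (nhdsWithin 0 (Set.Ioi 0))
          (nhds (Zs lam ^ 2 * C₀ * ‖x - y‖ ^ (-(1 : ℝ) / 4)))) ∧
      (∀ D D' : Set ℂ, IsC2JordanDomain D → IsC2JordanDomain D' → ∀ φ : ℂ → ℂ,
        DifferentiableOn ℂ φ D → Set.BijOn φ D D' →
        ∀ (b : BoundaryCondition) (n m : ℕ), 1 ≤ n + m →
        ∀ (x : Fin n → ℂ) (y : Fin m → ℂ) (j : Fin m → Fin 2),
          (∀ i, x i ∈ D) → (∀ k, y k ∈ D) → Function.Injective (Fin.append x y) →
          ∀ lam : ℝ, |lam| < lam₀ → ∃ F F' : ℝ,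
            Filter.Tendsto
              (fun a : ℝ => a ^ (-((n : ℝ) / 8 + m)) * domainMixedCorr D a b J lam R V (βc lam) x y j)
              (nhdsWithin 0 (Set.Ioi 0)) (nhds F) ∧
            Filter.Tendsto
              (fun a : ℝ => a ^ (-((n : ℝ) / 8 + m)) *
                domainMixedCorr D' a b J lam R V (βc lam) (fun i => φ (x i)) (fun k => φ (y k)) j)
              (nhdsWithin 0 (Set.Ioi 0)) (nhds F') ∧
            F = (∏ i, ‖deriv φ (x i)‖ ^ ((1 : ℝ) / 8)) * (∏ k, ‖deriv φ (y k)‖) * F') :=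
  Crest.Agent.R165.glue_main J hJ R V hVeven hVrange hVtrans hVrot hVrefl

end Crest.Agent.S0250
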