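import Crest.Statements.S0272
import Crest.Agent.R182.B.Main

set_option autoImplicit false
open Crest Crest.AlgebraR

namespace Crest.Agent.S0272

/-- Let `P` and `H` be groups with finite generating sets `S` and `T`, and suppose `P` is virtually polycyclic (it has a finite-index subgroup admitting a finite subnormal series with cyclic factors). If some map from `H` to `P` is a quasi-isometry between the word metric of `T` and the word metric of `S`, then `H` is virtually polycyclic as well. -/
theorem result
    (P H : Type*) [Group P] [Group H] (S : Finset P) (hS : Subgroup.closure (S : Set P) = ⊤)
    (T : Finset H) (hT : Subgroup.closure (T : Set H) = ⊤)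
    (hP : Crest.GroupTheory.IsVirtuallyPolycyclic P) (F : H → P)
    (hF : Crest.Geometry.IsQuasiIsometry (Crest.GroupTheory.wordDist (T : Set H))
      (Crest.GroupTheory.wordDist (S : Set P)) F) :
    Crest.GroupTheory.IsVirtuallyPolycyclic H := by
  exact Crest.Agent.R182.main S hS T hT hP F hF

end Crest.Agent.S0272
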