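import Crest.Statements.S0323
import Crest.Agent.R210.Iter

set_option autoImplicit false
open Crest.GeometryTopology.EditDistance
open Crest Crest.GeometryTopology Crest.GeometryTopology.EditDistance

namespace Crest.Agent.S0323

theorem choose_k (k₀ : ℕ) (hk₀ : 0 < k₀) : ∃ d₀ : ℕ, ∀ d, d₀ ≤ d → ∃ k : ℕ, k₀ ≤ k ∧
    k ^ (30 * k ^ 2) ≤ d ∧ d < (k + 1) ^ (30 * (k + 1) ^ 2) := by
  refine ⟨k₀ ^ (30 * k₀ ^ 2), fun d hd => ?_⟩
  have hex : ∃ j : ℕ, d < (k₀ + j + 1) ^ (30 * (k₀ + j + 1) ^ 2) :=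
    ⟨d, lt_of_lt_of_le (by omega) (Nat.le_self_pow (by positivity) _)⟩
  refine ⟨k₀ + Nat.find hex, Nat.le_add_right _ _, ?_, Nat.find_spec hex⟩
  rcases h : Nat.find hex with _ | j
  · exact hd
  · exact not_lt.1 (Nat.find_min hex (m := j) (h ▸ Nat.lt_succ_self j))

/-- There are constants `c > 0` and `d₀` such that for every `d ≥ d₀` some length `n ≤ d` has the following property: any map `f` from binary words into real `ℓ¹` that, after a common rescaling `s > 0`, satisfies `s · ed(x,y) ≤ ‖f x - f y‖ ≤ D · s · ed(x,y)` for all distinct binary words `x`, `y` of length exactly `n`, has `D ≥ exp (c √(log d · log log d))`. Here `ed` is unit-cost edit distance (insertions, deletions, substitutions, intermediate words of any length). -/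
theorem result :
    ∃ c : ℝ, 0 < c ∧ ∃ d₀ : ℕ, ∀ d : ℕ, d₀ ≤ d → ∃ n : ℕ, n ≤ d ∧
      ∀ (f : List Bool → lp (fun _ : ℕ => ℝ) 1) (s D : ℝ), 0 < s →
        (∀ x y : List Bool, x.length = n → y.length = n → x ≠ y →
          s * (editDist x y : ℝ) ≤ ‖f x - f y‖ ∧ ‖f x - f y‖ ≤ D * s * (editDist x y : ℝ)) →
        Real.exp (c * Real.sqrt (Real.log d * Real.log (Real.log d))) ≤ D := by
  obtain ⟨d₀, hd₀⟩ := choose_k 64 (by norm_num)
  refine ⟨1 / 70, by norm_num, d₀, fun d hd => ?_⟩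
  obtain ⟨k, hk, hk1, hk2⟩ := hd₀ d hd
  obtain ⟨n, hn, H⟩ := R210.main_bound k hk
  refine ⟨n, hn.trans hk1, fun f s D hs hf => le_trans ?_ (H f s D hs hf)⟩
  have hk' : (64 : ℝ) ≤ k := by exact_mod_cast hk
  have hk0 : (0 : ℝ) < k := by linarith
  have hd1 : 2 ≤ d := le_trans (le_trans (by omega) (Nat.le_self_pow (by positivity) k)) hk1
  have hd' : (2 : ℝ) ≤ d := by exact_mod_cast hd1
  have hlk : 2 * Real.log 8 ≤ Real.log k := by
    have : Real.log 64 = 2 * Real.log 8 := by
      rw [show (64 : ℝ) = 8 ^ 2 by norm_num, Real.log_pow]; norm_num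
    rw [← this]
    exact Real.log_le_log (by norm_num) hk'
  have hl8 : 0 < Real.log 8 := Real.log_pos (by norm_num)
  have hL0 : 0 < Real.log k := by linarith
  have a1 : (d : ℝ) ≤ ((k : ℝ) + 1) ^ (30 * (k + 1) ^ 2) := by exact_mod_cast hk2.le
  have a2 := Real.log_le_log (by linarith only [hd']) a1
  rw [Real.log_pow] at a2
  clear a1 hk1 hk2 hd₀ H hf hn hd
  have h1 : Real.log d ≤ 240 * k ^ 2 * Real.log k := by
    have a3 : Real.log ((k : ℝ) + 1) ≤ 2 * Real.log k := by
      have : Real.log ((k : ℝ) + 1) ≤ Real.log ((k : ℝ) ^ 2) :=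
        Real.log_le_log (by linarith) (by nlinarith)
      rwa [Real.log_pow] at this
    have a4 : 0 ≤ Real.log ((k : ℝ) + 1) := Real.log_nonneg (by linarith)
    push_cast at a2
    calc Real.log d ≤ 30 * ((k : ℝ) + 1) ^ 2 * Real.log ((k : ℝ) + 1) := a2
      _ ≤ 30 * (2 * (k : ℝ)) ^ 2 * (2 * Real.log k) := by gcongr; linarith
      _ = _ := by ring
  have hld : 0 < Real.log d := Real.log_pos (by linarith)
  have h2 : Real.log (Real.log d) ≤ 5 * Real.log k := by
    have a1 : Real.log k ≤ k := (Real.log_le_sub_one_of_pos hk0).trans (by linarith)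
    have a2 : Real.log d ≤ (k : ℝ) ^ 5 := by
      calc Real.log d ≤ 240 * k ^ 2 * Real.log k := h1
        _ ≤ (k : ℝ) ^ 2 * k ^ 2 * k := by gcongr; nlinarith
        _ = _ := by ring
    have := Real.log_le_log hld a2
    rwa [Real.log_pow] at this
  have h3 : Real.sqrt (Real.log d * Real.log (Real.log d)) ≤ 35 * k * Real.log k := by
    rw [Real.sqrt_le_left (by positivity)]
    calc Real.log d * Real.log (Real.log d) ≤ Real.log d * (5 * Real.log k) := by gcongr
      _ ≤ (240 * k ^ 2 * Real.log k) * (5 * Real.log k) := by gcongr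
      _ = 1200 * (k * Real.log k) ^ 2 := by ring
      _ ≤ 1225 * (k * Real.log k) ^ 2 := by gcongr; norm_num
      _ = _ := by ring
  have h4 : ((k : ℝ) / 8) ^ k = Real.exp (k * (Real.log k - Real.log 8)) := by
    rw [← Real.log_div hk0.ne' (by norm_num), Real.exp_nat_mul, Real.exp_log (by positivity)]
  rw [h4]
  refine Real.exp_le_exp.2 ?_
  nlinarith

end Crest.Agent.S0323
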