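import Crest.Statements.S0341
import Crest.Agent.R220.Global

set_option autoImplicit false
open scoped ContDiff
open Crest Crest.GeometryTopology

namespace Crest.Agent.S0341

/-- There is a smooth Riemannian metric on the open square (-1,1)^2 of the Euclidean plane, given as a smooth field g of symmetric positive-definite bilinear forms, such that no open neighbourhood U of the origin inside the square carries a smooth map F to Euclidean three-space with the inner product of dF_x v and dF_x w equal to g_x(v, w) for all x in U and all vectors v, w. In words: no neighbourhood of the origin admits a smooth isometric immersion into three-space. -/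
theorem result :
    ∃ g : EuclideanSpace ℝ (Fin 2) →
        (EuclideanSpace ℝ (Fin 2) →L[ℝ] EuclideanSpace ℝ (Fin 2) →L[ℝ] ℝ),
      ContDiffOn ℝ ∞ g {x : EuclideanSpace ℝ (Fin 2) | ∀ i, x i ∈ Set.Ioo (-1 : ℝ) 1} ∧
      (∀ x ∈ {x : EuclideanSpace ℝ (Fin 2) | ∀ i, x i ∈ Set.Ioo (-1 : ℝ) 1}, ∀ v w, g x v w = g x w v) ∧
      (∀ x ∈ {x : EuclideanSpace ℝ (Fin 2) | ∀ i, x i ∈ Set.Ioo (-1 : ℝ) 1}, ∀ v, v ≠ 0 → 0 < g x v v) ∧
      ∀ U : Set (EuclideanSpace ℝ (Fin 2)), IsOpen U → (0 : EuclideanSpace ℝ (Fin 2)) ∈ U →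
        U ⊆ {x : EuclideanSpace ℝ (Fin 2) | ∀ i, x i ∈ Set.Ioo (-1 : ℝ) 1} →
        ¬ ∃ F : EuclideanSpace ℝ (Fin 2) → EuclideanSpace ℝ (Fin 3), ContDiffOn ℝ ∞ F U ∧
          ∀ x ∈ U, ∀ v w, @inner ℝ (EuclideanSpace ℝ (Fin 3)) _ (fderiv ℝ F x v) (fderiv ℝ F x w)
            = g x v w := by
  obtain ⟨φ, hφ, hno⟩ := Crest.Agent.R220.global
  let π : EuclideanSpace ℝ (Fin 2) →L[ℝ] ℝ × ℝ :=
    (EuclideanSpace.proj (0 : Fin 2)).prod (EuclideanSpace.proj (1 : Fin 2))
  let ι : (ℝ × ℝ) →L[ℝ] EuclideanSpace ℝ (Fin 2) :=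
    (ContinuousLinearMap.fst ℝ ℝ ℝ).smulRight (EuclideanSpace.single 0 1) +
      (ContinuousLinearMap.snd ℝ ℝ ℝ).smulRight (EuclideanSpace.single 1 1)
  have hπι : ∀ z, π (ι z) = z := by
    intro z; ext <;> simp [π, ι]
  have hι1 : ι R220.e1 = EuclideanSpace.single 0 1 := by simp [ι]
  have hι2 : ι R220.e2 = EuclideanSpace.single 1 1 := by simp [ι]
  obtain ⟨B0, hB0⟩ : ∃ B0 : EuclideanSpace ℝ (Fin 2) →L[ℝ] EuclideanSpace ℝ (Fin 2) →L[ℝ] ℝ,
      ∀ v w, B0 v w = inner ℝ v w := ⟨innerSL ℝ, fun _ _ => rfl⟩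
  refine ⟨fun x => Real.exp (2 * φ (π x)) • B0, ?_, ?_, ?_, ?_⟩
  · have h1 : ContDiff ℝ ∞ fun x => Real.exp (2 * φ (π x)) :=
      (contDiff_const.mul (hφ.comp π.contDiff)).exp
    refine ContDiff.contDiffOn ?_
    rw [contDiff_clm_apply_iff]
    intro v
    rw [contDiff_clm_apply_iff]
    intro w
    simp only [smul_apply, smul_eq_mul]
    exact h1.mul contDiff_const
  · intro x _ v w
    simp only [smul_apply, hB0, real_inner_comm]
  · intro x _ v hv
    simp only [smul_apply, hB0, smul_eq_mul]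
    exact mul_pos (Real.exp_pos _) (real_inner_self_pos.2 hv)
  · rintro U hU h0 - ⟨F, hF, hiso⟩
    refine hno (ι ⁻¹' U) (by simpa using h0) ⟨fun c z => F (ι z) c, ?_⟩
    have hU' : IsOpen (ι ⁻¹' U) := hU.preimage ι.continuous
    have hdd : ∀ z ∈ ι ⁻¹' U, ∀ (v : ℝ × ℝ) (c : Fin 3),
        R220.dd v (fun z => F (ι z) c) z = fderiv ℝ F (ι z) (ι v) c := by
      intro z hz v c
      have h1 : HasFDerivAt F (fderiv ℝ F (ι z)) (ι z) :=
        (((hF _ hz).contDiffAt (hU.mem_nhds hz)).differentiableAt (by simp)).hasFDerivAt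
      have h2 := ((EuclideanSpace.proj c : EuclideanSpace ℝ (Fin 3) →L[ℝ] ℝ).hasFDerivAt).comp z
        (h1.comp z ι.hasFDerivAt)
      exact R220.dd_of_hasFDerivAt h2
    have hdot : ∀ z ∈ ι ⁻¹' U, ∀ v w : ℝ × ℝ,
        R220.dot (R220.D v fun c z => F (ι z) c) (R220.D w fun c z => F (ι z) c) z =
          Real.exp (2 * φ z) * inner ℝ (ι v) (ι w) := by
      intro z hz v w
      have := hiso (ι z) hz (ι v) (ι w)
      simp only [smul_apply, hB0, smul_eq_mul, hπι] at this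
      rw [← this]
      simp only [R220.dot, R220.D, hdd z hz, PiLp.inner_apply, Fin.sum_univ_three]
      simp [mul_comm]
    refine ⟨hU', hφ.contDiffOn, fun c => ?_, fun z hz => ?_, fun z hz => ?_, fun z hz => ?_⟩
    · exact (EuclideanSpace.proj c : EuclideanSpace ℝ (Fin 3) →L[ℝ] ℝ).contDiff.comp_contDiffOn
        (hF.comp ι.contDiff.contDiffOn fun z hz => hz)
    · rw [hdot z hz, hι1]; simp
    · rw [hdot z hz, hι1, hι2]; simp [EuclideanSpace.inner_single_left]
    · rw [hdot z hz, hι2]; simp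

end Crest.Agent.S0341
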