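import Crest.Statements.S0358
import Crest.Agent.R232.Main
import Crest.Agent.R232.Discretize

set_option autoImplicit false
open MeasureTheory
open scoped ENNReal
universe u
open Crest Crest.GeometryTopology

namespace Crest.Agent.S0358

/-- Fix an exponent `1 < p < ∞` with `p ≠ 2` and a distortion `D > 1`, and put `γ = 2 - p` if `p < 2` and `γ = 1 - 2/p` if `p > 2`. There is a constant `C`, depending only on `p` and `D`, such that for every `n ≥ 2`, every `n` distinct points of any real `L^p` space can be mapped to points of the `d`-dimensional real `ℓ^p` space for some `d ≤ exp (C (log n)^γ)`, so that after a common rescaling by some `s > 0` all pairwise distances are preserved up to the factor `D`. -/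
theorem result
    (p : ℝ≥0∞) [Fact (1 ≤ p)] (hp1 : 1 < p) (hptop : p ≠ ⊤) (hp2 : p ≠ 2)
    (D : ℝ) (hD : 1 < D) :
    ∃ C : ℝ, ∀ (n : ℕ), 2 ≤ n →
      ∀ (α : Type u) [MeasurableSpace α] (μ : Measure α) (x : Fin n → Lp ℝ p μ),
        Function.Injective x →
        ∃ d : ℕ, (d : ℝ) ≤ Real.exp (C * Real.log n ^ (if p.toReal < 2 then 2 - p.toReal else 1 - 2 / p.toReal)) ∧
          ∃ (y : Fin n → PiLp p (fun _ : Fin d => ℝ)) (s : ℝ), 0 < s ∧
            ∀ i j, s * ‖x i - x j‖ ≤ ‖y i - y j‖ ∧ ‖y i - y j‖ ≤ D * s * ‖x i - x j‖ := by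
  classical
  have hp0 : p ≠ 0 := (zero_lt_one.trans hp1).ne'
  set P := p.toReal with hP
  have hP1 : 1 < P := by
    rw [hP, ← ENNReal.toReal_one]
    exact (ENNReal.toReal_lt_toReal ENNReal.one_ne_top hptop).2 hp1
  have hP0 : 0 < P := by linarith
  have hP2 : P ≠ 2 := by
    intro h
    apply hp2
    rw [← ENNReal.ofReal_toReal hptop, ← hP, h]
    simp
  set η : ℝ := (D - 1) / (4 * D) with hη
  have hη0 : 0 < η := div_pos (by linarith) (by linarith)
  have hηD : 4 * D * η = D - 1 := by rw [hη]; field_simp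
  have hη4 : η < 1 / 4 := by nlinarith
  obtain ⟨C, hC, hred⟩ := R232.finite_reduction hP1 hP2 hη0
  set γ : ℝ := if P < 2 then 2 - P else 1 - 2 / P with hγ
  have hγ1 : |P - 2| / P ≤ γ := by
    rw [hγ]
    split_ifs with h
    · rw [abs_of_neg (by linarith), div_le_iff₀ hP0]; nlinarith
    · rw [abs_of_nonneg (by linarith)]
      refine le_of_eq ?_
      field_simp
  refine ⟨C * 8 ^ γ, fun n hn α _ μ x hx => ?_⟩
  have : Nonempty (Fin n) := ⟨⟨0, by omega⟩⟩
  set d : Fin n × Fin n → ℝ := fun e => if e.1 = e.2 then 1 else ‖x e.1 - x e.2‖ with hd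
  have hd0 : ∀ e, 0 < d e := fun e => by
    simp only [hd]
    split_ifs with h
    · exact one_pos
    · exact norm_pos_iff.2 (sub_ne_zero.2 fun h' => h (hx h'))
  have hgr : ∀ (e : Fin n × Fin n) (h : Fin n → ℝ),
      |R232.grad d h e| ^ P = |h e.1 - h e.2| ^ P / d e ^ P := fun e h => by
    rw [R232.grad, abs_div, abs_of_pos (hd0 e), Real.div_rpow (abs_nonneg _) (hd0 e).le]
  have hint : ∀ e : Fin n × Fin n, ∫ a, |R232.grad d (fun i => x i a) e| ^ P ∂μ =
      ‖x e.1 - x e.2‖ ^ P / d e ^ P := fun e => by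
    simp_rw [hgr]
    rw [integral_div, (R232.Lp_norm_sub_rpow hptop (x e.1) (x e.2)).2]
  obtain ⟨Ω, _, φ, hφ⟩ := R232.exists_discretization μ hP0 d (fun a i => x i a)
    (fun e => by
      simp_rw [hgr]
      exact (R232.Lp_norm_sub_rpow hptop (x e.1) (x e.2)).1.div_const _)
    (c := 1 - η) (by linarith) hη0
  simp_rw [hint] at hφ
  have hoff : ∀ e : Fin n × Fin n, e.1 ≠ e.2 → ‖x e.1 - x e.2‖ ^ P / d e ^ P = 1 := fun e h => by
    have h1 : d e = ‖x e.1 - x e.2‖ := if_neg h
    rw [← h1, div_self (Real.rpow_pos_of_pos (hd0 e) P).ne']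
  have hn2 : (2 : ℝ) ≤ n := by exact_mod_cast hn
  have hlog : 1 ≤ 8 * Real.log n := by
    have h1 : Real.log 2 ≤ Real.log n := Real.log_le_log (by norm_num) hn2
    linarith [Real.log_two_gt_d9]
  obtain ⟨N, y, s, hN, hs, hy⟩ := hred (Fin n) Ω d φ (8 * Real.log n) hd0
    (fun e => by
      have h1 := (abs_le.1 (hφ e)).2
      by_cases h : e.1 = e.2
      · rw [h, sub_self, norm_zero, Real.zero_rpow hP0.ne'] at h1
        simp only [zero_div, mul_zero, sub_zero] at h1
        linarith
      · rw [hoff e h] at h1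
        linarith)
    hlog (by simp)
  refine ⟨N, hN.trans (Real.exp_le_exp.2 ?_), fun i => WithLp.toLp p fun k => y k i,
    ((1 - 3 * η) * s) ^ (1 / P), Real.rpow_pos_of_pos (mul_pos (by linarith) hs) _, fun i j => ?_⟩
  · rw [mul_assoc, ← Real.mul_rpow (by norm_num) (by linarith)]
    exact mul_le_mul_of_nonneg_left (Real.rpow_le_rpow_of_exponent_le hlog hγ1) hC.le
  · by_cases hij : i = j
    · subst hij; simp
    have h1 := abs_le.1 (hφ (i, j))
    have h2 := abs_le.1 (hy (i, j))
    rw [hoff (i, j) hij] at h1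
    have hdij : d (i, j) = ‖x i - x j‖ := if_neg hij
    set r := ‖x i - x j‖ with hr
    have hr0 : 0 < r := hdij ▸ hd0 (i, j)
    have hrP : 0 < r ^ P := Real.rpow_pos_of_pos hr0 P
    have h3 : ∑ k, |R232.grad d (y k) (i, j)| ^ P = (∑ k, |y k i - y k j| ^ P) / r ^ P := by
      rw [Finset.sum_div]
      exact Finset.sum_congr rfl fun k _ => by rw [hgr, hdij]
    rw [h3] at h2
    have hnorm : ‖(WithLp.toLp p fun k => y k i : PiLp p (fun _ : Fin N => ℝ)) -
        WithLp.toLp p fun k => y k j‖ = (∑ k, |y k i - y k j| ^ P) ^ (1 / P) := by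
      rw [PiLp.norm_eq_sum hP0]
      simp [hP]
    rw [hnorm]
    set T := ∑ k, |y k i - y k j| ^ P with hT
    have hlo : (1 - 3 * η) * s * r ^ P ≤ T := by
      rw [← le_div_iff₀ hrP]
      nlinarith [h1.1, h2.1]
    have hup : T ≤ (1 + η) * s * r ^ P := by
      rw [← div_le_iff₀ hrP]
      nlinarith [h1.2, h2.2]
    have hs3 : 0 < (1 - 3 * η) * s := mul_pos (by linarith) hs
    have hrr : (r ^ P) ^ (1 / P) = r := by
      rw [one_div, Real.rpow_rpow_inv hr0.le hP0.ne']
    have hT0 : 0 ≤ T := le_trans (by positivity) hlo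
    constructor
    · calc ((1 - 3 * η) * s) ^ (1 / P) * r = ((1 - 3 * η) * s * r ^ P) ^ (1 / P) := by
            rw [Real.mul_rpow hs3.le hrP.le, hrr]
        _ ≤ T ^ (1 / P) := Real.rpow_le_rpow (by positivity) hlo (by positivity)
    · have hDP : D ≤ D ^ P := by
        have := Real.rpow_le_rpow_of_exponent_le hD.le hP1.le
        rwa [Real.rpow_one] at this
      have hDD : (D ^ P) ^ (1 / P) = D := by
        rw [one_div, Real.rpow_rpow_inv (by linarith) hP0.ne']
      have h4 : 1 + η ≤ D ^ P * (1 - 3 * η) := by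
        nlinarith [mul_le_mul_of_nonneg_right hDP (by linarith : 0 ≤ 1 - 3 * η)]
      calc T ^ (1 / P) ≤ (D ^ P * ((1 - 3 * η) * s) * r ^ P) ^ (1 / P) := by
            refine Real.rpow_le_rpow hT0 (hup.trans ?_) (by positivity)
            refine mul_le_mul_of_nonneg_right ?_ hrP.le
            nlinarith [mul_le_mul_of_nonneg_right h4 hs.le]
        _ = D * ((1 - 3 * η) * s) ^ (1 / P) * r := by
            rw [Real.mul_rpow (by positivity) hrP.le, hrr,
              Real.mul_rpow (by positivity) hs3.le, hDD]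

end Crest.Agent.S0358
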