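import Crest.Statements.S0359
import Crest.Agent.R232.Clarkson
import Crest.Agent.R232.Discretize

set_option autoImplicit false
open MeasureTheory
open scoped ENNReal
open Crest Crest.GeometryTopology

namespace Crest.Agent.S0359

/-- Fix an exponent 1 < p < ∞ with p ≠ 2 and n ≥ 9. If d is a dimension such that every n distinct points of any real L^p space can be mapped to the d-dimensional real ℓ^p space with all pairwise distances multiplied by one common factor s > 0 (an isometric embedding up to scaling), then ⌊(n − 1)/4⌋² ≤ d. -/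
theorem result
    (p : ℝ≥0∞) [Fact (1 ≤ p)] (hp1 : 1 < p) (hptop : p ≠ ⊤) (hp2 : p ≠ 2)
    (n : ℕ) (hn : 9 ≤ n) (d : ℕ)
    (hd : ∀ (α : Type) [MeasurableSpace α] (μ : Measure α) (x : Fin n → Lp ℝ p μ),
      Function.Injective x →
      ∃ (y : Fin n → PiLp p (fun _ : Fin d => ℝ)) (s : ℝ), 0 < s ∧
        ∀ i j, ‖y i - y j‖ = s * ‖x i - x j‖) :
    ((n - 1) / 4) ^ 2 ≤ d := by
  classical
  have hp0 : p ≠ 0 := (zero_lt_one.trans hp1).ne'
  set P := p.toReal with hP
  have hP1 : 1 < P := by
    rw [hP, ← ENNReal.toReal_one]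
    exact (ENNReal.toReal_lt_toReal ENNReal.one_ne_top hptop).2 hp1
  have hP0 : 0 < P := by linarith
  have hP2 : P ≠ 2 := by
    intro h
    apply hp2
    rw [← ENNReal.ofReal_toReal hptop, ← hP, h]
    simp
  set m := (n - 1) / 4 with hm
  have hm2 : 2 ≤ m := by omega
  have hmn : 4 * m + 1 ≤ n := by omega
  let Q := (Bool × Bool × Fin m) ⊕ Fin (n - 4 * m)
  have hcard : Fintype.card Q = n := by
    simp only [Q, Fintype.card_sum, Fintype.card_prod, Fintype.card_bool, Fintype.card_fin]
    omega
  let e : Q ≃ Fin n := Fintype.equivFinOfCardEq hcard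
  let g : Q → Fin m × Fin m → ℝ := Sum.elim
    (fun a t => (if a.1 then 1 else -1) * (if (if a.2.1 then t.1 else t.2) = a.2.2 then 1 else 0))
    (fun k _ => 2 * (k : ℕ))
  have hg : Function.Injective g := by
    have hoth : ∀ i : Fin m, ∃ j : Fin m, j ≠ i := fun i => by
      by_cases h : i = ⟨0, by omega⟩
      · exact ⟨⟨1, by omega⟩, by rw [h]; simp⟩
      · exact ⟨⟨0, by omega⟩, fun h' => h h'.symm⟩
    have hmix : ∀ (a : Bool × Bool × Fin m) (k : Fin (n - 4 * m)),
        g (Sum.inl a) ≠ g (Sum.inr k) := by
      rintro ⟨s, t, i⟩ k h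
      have h1 := congrFun h (i, i)
      simp only [g, Sum.elim_inl, Sum.elim_inr, ite_self, if_true, mul_one] at h1
      cases s
      · simp only [Bool.false_eq_true, if_false] at h1
        have : (0 : ℝ) ≤ (k : ℕ) := Nat.cast_nonneg _
        linarith
      · simp only [if_true] at h1
        have h2 : (1 : ℕ) = 2 * (k : ℕ) := by exact_mod_cast h1
        omega
    rintro (⟨s, t, i⟩ | k) (⟨s', t', i'⟩ | k') h
    · have h1 := congrFun h (i, i)
      obtain ⟨j, hj⟩ := hoth i
      have h2 := congrFun h (i, j)
      simp only [g, Sum.elim_inl, ite_self, if_true, mul_one] at h1 h2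
      have hii : i = i' := by
        by_contra hne
        rw [if_neg hne] at h1
        cases s <;> simp at h1
      subst hii
      have hss : s = s' := by
        cases s <;> cases s' <;> simp at h1 ⊢ <;> norm_num at h1
      subst hss
      have htt : t = t' := by
        cases s <;> cases t <;> cases t' <;> simp [hj] at h2 ⊢
      rw [htt]
    · exact absurd h (hmix _ _)
    · exact absurd h.symm (hmix _ _)
    · have h1 := congrFun h (⟨0, by omega⟩, ⟨0, by omega⟩)
      simp only [g, Sum.elim_inr] at h1
      have h2 : (k : ℕ) = k' := by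
        have : ((k : ℕ) : ℝ) = (k' : ℕ) := by linarith
        exact_mod_cast this
      rw [Fin.ext h2]
  let μ : Measure (Fin m × Fin m) := Measure.count
  have hmem : ∀ f : Fin m × Fin m → ℝ, MemLp f p μ := fun f => MemLp.of_discrete
  let x : Fin n → Lp ℝ p μ := fun i => (hmem (g (e.symm i))).toLp
  have hx : ∀ i t, x i t = g (e.symm i) t := fun i =>
    Measure.ae_count_iff.1 (hmem (g (e.symm i))).coeFn_toLp
  have hxinj : Function.Injective x := by
    intro i j hij
    refine e.symm.injective (hg (funext fun t => ?_))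
    rw [← hx, ← hx, hij]
  obtain ⟨y, s, hs, hy⟩ := hd (Fin m × Fin m) μ x hxinj
  have key := R232.rigid_grid (c := s ^ P) hP1 hP2 (Real.rpow_pos_of_pos hs P) g
    (fun a k => y (e a) k) (fun a b => by
      have h1 := (R232.Lp_norm_sub_rpow hptop (x (e a)) (x (e b))).2
      rw [integral_count] at h1
      simp only [hx, Equiv.symm_apply_apply] at h1
      rw [← hP] at h1
      rw [h1, ← Real.mul_rpow hs.le (norm_nonneg _), ← hy, PiLp.norm_eq_sum hP0, one_div,
        Real.rpow_inv_rpow (Finset.sum_nonneg fun k _ => by positivity) hP0.ne']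
      simp [hP])
    (Sum.inr ⟨0, by omega⟩) (fun t => by simp [g])
    (fun i => Sum.inl (true, true, i)) (fun i => Sum.inl (false, true, i))
    (fun i => Sum.inl (true, false, i)) (fun i => Sum.inl (false, false, i))
    (fun i t => by simp [g]) (fun i t => by simp [g]; split_ifs <;> simp)
    (fun i t => by simp [g]) (fun i t => by simp [g]; split_ifs <;> simp)
  simpa using key

end Crest.Agent.S0359
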