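import Crest.Statements.S0370
import Crest.Agent.R239.Dyn

set_option autoImplicit false
open Crest Crest.GeometryTopology

namespace Crest.Agent.S0370

/-- There is an absolute constant `C` such that, in every dimension `d`, every finite sequence of vectors of Euclidean norm at most one in `ℝ^d` admits one choice of signs `±1` under which every signed prefix sum has Euclidean norm at most `C * √d`. -/
theorem result :
    ∃ C : ℝ, ∀ (d N : ℕ) (v : Fin N → EuclideanSpace ℝ (Fin d)),
      (∀ i, ‖v i‖ ≤ 1) →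
      ∃ ε : Fin N → ℤ, (∀ i, ε i = 1 ∨ ε i = -1) ∧
        ∀ k : ℕ, k ≤ N →
          ‖∑ i ∈ Finset.univ.filter (fun i : Fin N => (i : ℕ) < k), (ε i : ℝ) • v i‖ ≤ C * Real.sqrt d := by
  refine ⟨300000000, fun d N v hv => ?_⟩
  set w : ℕ → EuclideanSpace ℝ (Fin d) := fun k => if h : k < N then v ⟨k, h⟩ else 0 with hw
  obtain ⟨ε, h1, h2⟩ := Crest.Agent.R239.main_nat d N w (fun k => by
    simp only [hw]
    split_ifs
    · exact hv _
    · simp)
  refine ⟨fun i => ε i, fun i => h1 i i.2, fun k hk => ?_⟩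
  have e : ∑ i ∈ Finset.univ.filter (fun i : Fin N => (i : ℕ) < k), ((ε i : ℤ) : ℝ) • v i
      = ∑ i ∈ Finset.range k, (ε i : ℝ) • w i := by
    have e1 : ∀ i : Fin N, (if (i : ℕ) < k then ((ε i : ℤ) : ℝ) • v i else 0)
        = (fun i : ℕ => if i < k then (ε i : ℝ) • w i else 0) i := by
      intro i
      simp [hw]
    rw [Finset.sum_filter]
    simp_rw [e1]
    rw [Fin.sum_univ_eq_sum_range (fun i : ℕ => if i < k then (ε i : ℝ) • w i else 0) N,
      ← Finset.sum_filter]
    congr 1
    ext i
    simp only [Finset.mem_filter, Finset.mem_range]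
    omega
  rw [e]
  rcases Nat.eq_zero_or_pos d with hd | hd
  · subst hd
    rw [EuclideanSpace.norm_eq]
    simp
  · have h3 := h2 k hk
    have h4 : (1 : ℝ) ≤ d := by exact_mod_cast hd
    refine abs_le_of_sq_le_sq' ?_ (by positivity) |>.2
    rw [mul_pow, Real.sq_sqrt (by positivity)]
    linarith

end Crest.Agent.S0370
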