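import Crest.Statements.S0371
import Crest.Agent.R240.Main

set_option autoImplicit false
open scoped Manifold ContDiff
open Crest.GeometryTopology.TwoForm
open Crest Crest.GeometryTopology

namespace Crest.Agent.S0371

/-- Let M be a compact connected Hausdorff smooth four-manifold modelled on Euclidean four-space and J a smooth almost complex structure on M (a smooth field of tangent-space endomorphisms with J² = −1). If some smooth closed two-form α tames J, i.e. α_x(v, Jv) > 0 for every non-zero tangent vector v, then some smooth closed two-form α' is compatible with J: it tames J and α'_x(Ju, Jv) = α'_x(u, v). Closedness is stated through the invariant formula for dα on global smooth vector fields. -/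
theorem result
    (M : Type*) [TopologicalSpace M] [T2Space M] [CompactSpace M] [ConnectedSpace M]
    [ChartedSpace (EuclideanSpace ℝ (Fin 4)) M] [IsManifold (𝓡 4) ∞ M]
    (J : Π x : M, TangentSpace (𝓡 4) x →L[ℝ] TangentSpace (𝓡 4) x)
    (hJ : IsAlmostComplexStructure (𝓡 4) M J)
    (hα : ∃ α : Π x : M, TangentSpace (𝓡 4) x →L[ℝ] TangentSpace (𝓡 4) x →L[ℝ] ℝ,
      IsSmoothTwoForm (𝓡 4) M α ∧ IsClosedTwoForm (𝓡 4) M α ∧ Tames (𝓡 4) M α J) :
    ∃ α' : Π x : M, TangentSpace (𝓡 4) x →L[ℝ] TangentSpace (𝓡 4) x →L[ℝ] ℝ,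
      IsSmoothTwoForm (𝓡 4) M α' ∧ IsClosedTwoForm (𝓡 4) M α' ∧
        IsCompatible (𝓡 4) M α' J := by
  obtain ⟨α, h1, h2, h3⟩ := hα
  exact Crest.Agent.R240.main hJ h1 h2 h3

end Crest.Agent.S0371
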