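import Crest.Statements.S0372
import Crest.Agent.R241.Main

set_option autoImplicit false
open Crest.GeometryTopology.Submanifold
open Crest Crest.GeometryTopology

namespace Crest.Agent.S0372

/-- Let n ≥ 2, κ ≤ 0, and S a closed, connected, simply connected n-dimensional submanifold of Euclidean space (complete for the induced metric) with sectional curvatures at most κ. Measure subsets by the ambient Lebesgue-normalised Hausdorff measures μHE. Every relatively open E ⊆ S, bounded or not, obeys the sharp comparison with the space form of curvature κ: if μHE[n](E) is the volume of the model geodesic ball of radius r, then μHE[n−1] of E's boundary in S is at least its area. -/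
theorem result
    (n N : ℕ) (hn : 2 ≤ n) (κ : ℝ) (hκ : κ ≤ 0) (S : Set (EuclideanSpace ℝ (Fin N)))
    (hS : IsSubmanifold n N S) (hclosed : IsClosed S) (hconn : IsConnected S)
    (hsc : SimplyConnectedSpace S)
    (hsec : ∀ p ∈ S, ∀ (f : EuclideanSpace ℝ (Fin n) → EuclideanSpace ℝ (Fin N))
      (V : Set (EuclideanSpace ℝ (Fin n))), IsLocalParam n N S p f V →
      ∀ u v : EuclideanSpace ℝ (Fin n), secNum f 0 u v ≤ κ * gramDet f 0 u v)
    (E : Set (EuclideanSpace ℝ (Fin N))) (hES : E ⊆ S)
    (hopen : ∃ U : Set (EuclideanSpace ℝ (Fin N)), IsOpen U ∧ E = S ∩ U)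
    (r : ℝ) (hr : 0 ≤ r)
    (hvol : MeasureTheory.Measure.euclideanHausdorffMeasure n E
      = ENNReal.ofReal (modelVolume n κ r)) :
    ENNReal.ofReal (modelArea n κ r)
      ≤ MeasureTheory.Measure.euclideanHausdorffMeasure (n - 1) (relBoundary S E) :=
  Crest.Agent.R241.s372 n N hn κ hκ S hS hclosed hconn hsc hsec E hES hopen r hr hvol

end Crest.Agent.S0372
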