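import Crest.Statements.S0377
import Crest.Agent.R244.Final
import Crest.Agent.R244.Quot
import Crest.Agent.R244.Mfd
import Crest.Agent.R244.Bridge
import Crest.Agent.R244.ProfB
import Crest.Agent.R244.Data2

set_option autoImplicit false
open Bundle Crest.GeometryTopology.Geodesic
open scoped ContDiff Manifold
open Crest Crest.GeometryTopology Crest.GeometryTopology.Geodesic

namespace Crest.Agent.S0377

/-- There is a compact connected orientable smooth 3-manifold `M` (Hausdorff, second countable, charted on `ℝ³`, hence without boundary) that carries a smooth Riemannian metric with no conjugate points — along every geodesic, a Jacobi field vanishing at two distinct parameters vanishes identically, geodesics and Jacobi fields being the solutions of the usual coordinate equations in charts — while no smooth Riemannian metric on `M` has all its sectional curvatures at most zero. -/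
theorem result :
    ∃ (M : Type) (_ : TopologicalSpace M) (_ : ChartedSpace (EuclideanSpace ℝ (Fin 3)) M)
      (_ : IsManifold 𝓘(ℝ, EuclideanSpace ℝ (Fin 3)) ∞ M),
      T2Space M ∧ SecondCountableTopology M ∧ CompactSpace M ∧ ConnectedSpace M ∧
      IsOrientable 3 M ∧
      (∃ g : ContMDiffRiemannianMetric 𝓘(ℝ, EuclideanSpace ℝ (Fin 3)) ∞ (EuclideanSpace ℝ (Fin 3))
          (fun x : M => TangentSpace 𝓘(ℝ, EuclideanSpace ℝ (Fin 3)) x), NoConjugatePoints g) ∧
      ∀ g : ContMDiffRiemannianMetric 𝓘(ℝ, EuclideanSpace ℝ (Fin 3)) ∞ (EuclideanSpace ℝ (Fin 3))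
          (fun x : M => TangentSpace 𝓘(ℝ, EuclideanSpace ℝ (Fin 3)) x), ¬ HasNonposSectionalCurvature g := by
  obtain ⟨P⟩ := R244.exists_prof
  obtain ⟨M, top, hT2, hSC, hC, hCo, pr, ι, φ, hG⟩ := P.etale.exists_glued
  obtain ⟨cs, hM, hch, hor, g0, hg0⟩ := R244.exists_manifold φ (fun x => P.G (ι x)) hG.mem
    (fun x => hG.riem P.etale x) (fun x x' q hq hq' => hG.isom P.etale x x' q hq hq')
  have hφ : (R244.toMA g0).φ = φ := funext hch
  have hmod : R244.Model P (R244.toMA g0) pr ι := by
    refine ⟨hφ ▸ hG, fun x y hy => ?_⟩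
    rw [hφ] at hy
    change R244.bil (metricInChart g0 x) y = _
    simp only [R244.bil, hg0 x y hy]
  exact ⟨M, top, cs, hM, hT2, hSC, hC, hCo, hor, ⟨g0, R244.toMA_NCP g0 hmod.ncp⟩,
    fun g hg => R244.not_npc hmod (R244.toMA g) (R244.toMA_NPC g hg)⟩

end Crest.Agent.S0377
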