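import Crest.Statements.S0391
import Crest.Agent.R253.Main

set_option autoImplicit false
open MeasureTheory Crest.GeometryTopology.Isotropic
open Crest Crest.GeometryTopology Crest.GeometryTopology.Isotropic

namespace Crest.Agent.S0391

/-- For every `m ≥ 1` and every log-concave probability density `f` on `ℝ^m` (measurable, `f ≥ 0`, `∫ f = 1`, positive set convex and `log f` concave on it), the differential entropy satisfies `h(f) ≥ m + (1/2) log det Cov(f)`, with equality exactly when `f` agrees almost everywhere with the density `x ↦ exp (-∑ᵢ uᵢ) 𝟙[u ≥ 0] / abs (det M)`, `u = M⁻¹ (x - b)`, of an invertible affine image `M E + b` of a vector `E` of independent one-sided exponential variables. -/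
theorem result (m : ℕ) (hm : 1 ≤ m)
    (f : (Fin m → ℝ) → ℝ) (hf : Measurable f) (hf0 : ∀ x, 0 ≤ f x) (hf1 : ∫ x, f x = 1)
    (hfc : Convex ℝ {x | 0 < f x}) (hfl : ConcaveOn ℝ {x | 0 < f x} (fun x => Real.log (f x))) :
    (m : ℝ) + Real.log (densCov f).det / 2 ≤ diffEntropy f ∧
      (diffEntropy f = (m : ℝ) + Real.log (densCov f).det / 2 ↔
        ∃ (M : Matrix (Fin m) (Fin m) ℝ) (b : Fin m → ℝ), M.det ≠ 0 ∧
          f =ᵐ[volume] fun x => |M.det|⁻¹ *
            Set.indicator {y : Fin m → ℝ | ∀ i, 0 ≤ (M⁻¹.mulVec (y - b)) i}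
              (fun y => Real.exp (- ∑ i, (M⁻¹.mulVec (y - b)) i)) x) := by
  exact Crest.Agent.R253.LC.main ⟨hf, hf0, hf1, hfc, hfl⟩

end Crest.Agent.S0391
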