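import Crest.Statements.S0411
import Crest.Agent.R269.Final

set_option autoImplicit false
open Crest.AlgGeometry.ProjEmb
noncomputable section
open Crest Crest.AlgGeometry Crest.AlgGeometry.ProjEmb

namespace Crest.Agent.S0411

/-- Let `I` be a homogeneous prime ideal of `ℂ[x_0, …, x_N]` presenting a smooth projective variety `X` of dimension `n ≥ 1` (Jacobian criterion on the cone). If every holomorphic map from ℂ to `X` is constant (said through nowhere-vanishing differentiable lifts into the cone), then the canonical bundle of `X` is ample: for some `m ≥ 1`, the global sections of its `m`-th power (chart-regular rational pluricanonical forms) have no common zero and separate points and tangent vectors. -/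
theorem result
    (N n : ℕ) (I : Ideal (HomCoordRing N)) [I.IsPrime] (hX : IsSmoothProjective I n)
    (hn : 1 ≤ n) (hcurves : EntireCurvesConstant I) :
    IsCanonicallyAmple I n := by
  exact Crest.Agent.R269.main N n I hX hn hcurves

end Crest.Agent.S0411
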