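import Crest.Statements.S0413
import Crest.Agent.R271.Main

set_option autoImplicit false
open AlgebraicGeometry Crest.AlgGeometry.Divisors
open Crest Crest.AlgGeometry Crest.AlgGeometry.Divisors

namespace Crest.Agent.S0413

/-- Let `X` be a smooth proper complex variety of dimension `n ≥ 1` (integral, proper and smooth of relative dimension `n` over `ℂ`) with an ample divisor `L` (so `X` is projective). Then for every canonical divisor `K` and every `m ≥ n + 1`, `K + mL` is basepoint-free: at every point some global section does not vanish. Divisors are Weil divisors (`X` is smooth), sections of `O(D)` are rational `f` with `div f + D ≥ 0`, a canonical divisor is the divisor of a nonzero rational `n`-form. -/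
theorem result
    (X : Scheme.{0}) [Algebra ℂ Γ(X, ⊤)] [IsIntegral X] [IsLocallyNoetherian X]
    (n : ℕ) (hn : 1 ≤ n) (hX : IsSmoothProperVariety ℂ X n)
    (L : WeilDiv X) (hL : IsAmple L) (K : WeilDiv X) (hK : IsCanonicalDivisor ℂ X n K)
    (m : ℕ) (hm : n + 1 ≤ m) : IsBasepointFree (K + m • L) := by
  exact Crest.Agent.R271.stMain X n hn hX L hL K hK m hm

end Crest.Agent.S0413
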