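import Crest.Statements.S0464
import Crest.Agent.R304.Med
import Crest.Agent.R304.PTb
import Crest.Agent.Lib.PolyTime.Bridge
import Crest.Agent.Lib.PolyTime.Codes

set_option autoImplicit false
open Crest.Enc Crest.FinProb Crest.Randomized Crest.Matchings
open Crest Crest.LogicCS

namespace Crest.Agent.S0464

open Crest.Agent.Lib.PolyTime Crest.Agent.R304
open Crest.Agent.R309 (avgN avgL Tape digs ind blk uniformProb_eq_avgN avgN_digs avgL_mono ind_mono)

/-- the size parameter -/
def sz (l : ℕ) : ℕ := 2 ^ (Nat.log 2 (3 * l + 1024) + 1)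

theorem lt_sz (l : ℕ) : 3 * l + 1024 < sz l := Nat.lt_pow_succ_log_self (by norm_num) _

theorem sz_le (l : ℕ) : sz l ≤ 6 * l + 2048 := by
  have := Nat.pow_log_le_self 2 (x := 3 * l + 1024) (by omega)
  unfold sz
  rw [pow_succ]
  omega

theorem delta_ge {δ : ℚ} (hδ : 0 < δ) {l : ℕ} (hl : (ratCode δ).length ≤ l) :
    (2⁻¹ : ℝ) ^ l ≤ δ := by
  have h1 : δ.den ≤ 2 ^ l := by
    refine (Nat.lt_size_self _).le.trans (Nat.pow_le_pow_right (by norm_num) ?_)
    simp only [ratCode, List.length_cons, List.length_append, length_natCode] at hl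
    omega
  have h2 : (1 : ℝ) ≤ δ.num := by exact_mod_cast Rat.num_pos.2 hδ
  have h3 : (0 : ℝ) < δ.den := by exact_mod_cast δ.den_pos
  have h4 : (δ.den : ℝ) ≤ 2 ^ l := by exact_mod_cast h1
  rw [Rat.cast_def, inv_pow, ← one_div]
  exact div_le_div₀ (by linarith) h2 h3 h4

theorem sq_le_length (n : ℕ) (G : SimpleGraph (Fin n)) [DecidableRel G.Adj] :
    n * n ≤ (graphCode n G).length := by
  unfold graphCode
  rw [List.length_append, List.length_flatten, List.map_map]
  have : (List.map (List.length ∘ fun i : Fin n =>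
      (List.finRange n).map fun j => decide (G.Adj i j)) (List.finRange n)) =
      List.replicate n n := by
    rw [List.eq_replicate_iff]
    refine ⟨by simp, fun b hb => ?_⟩
    obtain ⟨i, -, rfl⟩ := List.mem_map.1 hb
    simp
  rw [this]
  simp

/-- A randomized polynomial-time approximation scheme counts perfect matchings of simple graphs: one algorithm and one polynomial r such that, on the code of a graph, of rationals 0 < ε < 1, 0 < δ < 1/2 and a unary block of length ⌈1/ε⌉, run with r(input length) fair random bits, every tape yields the code of a nonnegative rational, which with probability at least 1 − δ is within a factor 1 ± ε of the number of perfect matchings, and which is 0 on every tape when there is no perfect matching. -/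
theorem result :
    ∃ (A : List Bool × List Bool → List Bool) (r : Polynomial ℕ), RandPolyTime A ∧
      ∀ (n : ℕ) (G : SimpleGraph (Fin n)) [DecidableRel G.Adj] (ε δ : ℚ),
        0 < ε → ε < 1 → 0 < δ → δ < 1 / 2 →
        (∀ ω : Fin (r.eval (graphCode n G ++ ratCode ε ++ ratCode δ ++ List.replicate ⌈ε⁻¹⌉₊ true).length) → Bool,
          ∃ z : ℚ, 0 ≤ z ∧ A (graphCode n G ++ ratCode ε ++ ratCode δ ++ List.replicate ⌈ε⁻¹⌉₊ true, List.ofFn ω) = ratCode z) ∧
        (numPerfectMatchings G = 0 →
          ∀ ω : Fin (r.eval (graphCode n G ++ ratCode ε ++ ratCode δ ++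
              List.replicate ⌈ε⁻¹⌉₊ true).length) → Bool,
            A (graphCode n G ++ ratCode ε ++ ratCode δ ++ List.replicate ⌈ε⁻¹⌉₊ true,
              List.ofFn ω) = ratCode 0) ∧
        1 - (δ : ℝ) ≤ uniformProb {ω : Fin (r.eval (graphCode n G ++ ratCode ε ++ ratCode δ ++
              List.replicate ⌈ε⁻¹⌉₊ true).length) → Bool |
            ∃ z : ℚ, A (graphCode n G ++ ratCode ε ++ ratCode δ ++ List.replicate ⌈ε⁻¹⌉₊ true,
              List.ofFn ω) = ratCode z ∧
              (1 - ε) * numPerfectMatchings G ≤ z ∧ z ≤ (1 + ε) * numPerfectMatchings G} := by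
  obtain ⟨dec, hdec, hd⟩ := exists_graphCode_decoder
  have hl : PT fun p : List Bool × List Bool => 3 * p.1.length + 1024 :=
    ((PT.const 3).nat_mul PT.fst'.length).nat_add (PT.const 1024)
  have hs : PT fun p : List Bool × List Bool => sz p.1.length :=
    PT.nat_pow (PT.const 2) (((PT.const 2).nat_log hl).nat_add (PT.const 1))
      ((PB.log (b := fun _ => 2) hl).add (PB.const 1))
  have hs' : PB fun p : List Bool × List Bool => sz p.1.length :=
    PB.mono (g' := fun p : List Bool × List Bool => 6 * p.1.length + 2048)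
      (((PB.const 6).mul (PB.length PT.fst')).add (PB.const 2048)) fun p => sz_le _
  have htab : PT fun p : List Bool × List Bool => (dec p.1).1.2 := (hdec.comp PT.fst').fst.snd
  refine ⟨fun p => ratCode ((alg (dec p.1).1.2.length (sz p.1.length) (dec p.1).1.2
      (digs (pBs (sz p.1.length)) (pL3 (sz p.1.length)) (ofBits p.2)) : ℕ) : ℚ),
    (6 * Polynomial.X + 2048) ^ 900,
    PT.randPolyTime (PT.ratCode (PT.rat_natCast (pt_alg htab.length (PB.length htab) hs hs' htab
      (pt_digs hs hs' (by fun_prop))))), ?_⟩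
  intro n G _ ε δ hε _ hδ _
  generalize hx : graphCode n G ++ ratCode ε ++ ratCode δ ++ List.replicate ⌈ε⁻¹⌉₊ true = x
  have hlen : (graphCode n G).length + (ratCode ε).length + (ratCode δ).length + ⌈ε⁻¹⌉₊ = x.length := by
    rw [← hx]
    simp only [List.length_append, List.length_replicate]
  have hdx : (dec x).1.2 = rowsOf fun i j => decide (G.Adj i j) := by
    rw [← hx, List.append_assoc (graphCode n G), List.append_assoc (graphCode n G), hd]
  have hn : (dec x).1.2.length = n := by rw [hdx, length_rowsOf]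
  have hT : TabOf G (dec x).1.2 := by
    intro i j
    rw [hdx, adjB, getD_rowsOf]
    simp
  have hlt := lt_sz x.length
  have hnn := sq_le_length n G
  simp only [hn]
  refine ⟨fun ω => ⟨_, Nat.cast_nonneg _, rfl⟩, fun h0 ω => ?_, ?_⟩
  · rw [alg_zero hT h0, Nat.cast_zero]
  · obtain ⟨r, hr, hr'⟩ := exists_bits (s := sz x.length) (by omega) ⟨_, rfl⟩
    have hR : r * pL3 (sz x.length) ≤
        ((6 * Polynomial.X + 2048 : Polynomial ℕ) ^ 900).eval x.length := by
      refine hr'.trans ?_
      rw [Polynomial.eval_pow]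
      have h5 : (6 * Polynomial.X + 2048 : Polynomial ℕ).eval x.length = 6 * x.length + 2048 := by simp
      rw [h5]
      exact Nat.pow_le_pow_left (sz_le _) _
    generalize ((6 * Polynomial.X + 2048 : Polynomial ℕ) ^ 900).eval x.length = R at hR ⊢
    have h3 : 3 * n * n < sz x.length := by rw [mul_assoc]; omega
    have hlaw := alg_law (s := sz x.length) (by omega) ⟨_, rfl⟩ h3 hT
    have hε' : 1 / ((sz x.length : ℕ) : ℝ) ≤ ε := by
      have h1 : ε⁻¹ ≤ ((sz x.length : ℕ) : ℚ) :=
        (Nat.le_ceil _).trans (by exact_mod_cast (by omega))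
      have h2 : 1 / ((sz x.length : ℕ) : ℚ) ≤ ε := by
        rw [one_div]
        exact inv_le_of_inv_le₀ hε h1
      have h4 : ((1 / ((sz x.length : ℕ) : ℚ) : ℚ) : ℝ) ≤ ε := Rat.cast_le.2 h2
      rwa [Rat.cast_div, Rat.cast_one, Rat.cast_natCast] at h4
    have hδ' := delta_ge hδ (l := sz x.length) (by omega)
    rw [uniformProb_eq_avgN R (fun U => ∃ z : ℚ, ratCode ((alg n (sz x.length) (dec x).1.2
        (digs (pBs (sz x.length)) (pL3 (sz x.length)) U) : ℕ) : ℚ) = ratCode z ∧
          (1 - ε) * numPerfectMatchings G ≤ z ∧ z ≤ (1 + ε) * numPerfectMatchings G),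
      show 2 ^ R = pBs (sz x.length) ^ pL3 (sz x.length) * 2 ^ (R - r * pL3 (sz x.length)) by
        rw [hr, ← pow_mul, ← pow_add, Nat.add_sub_cancel' hR],
      avgN_digs (pBs_pos (by omega)) (by positivity) (pL3 (sz x.length)) (fun us => ind (∃ z : ℚ,
        ratCode ((alg n (sz x.length) (dec x).1.2 us : ℕ) : ℚ) = ratCode z ∧
          (1 - ε) * numPerfectMatchings G ≤ z ∧ z ≤ (1 + ε) * numPerfectMatchings G))]
    refine le_trans (by linarith) (hlaw.trans (avgL_mono fun us _ => ind_mono ?_))
    rintro ⟨h1, h2⟩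
    have hN : (0 : ℝ) ≤ numPerfectMatchings G := Nat.cast_nonneg _
    refine ⟨_, rfl, ?_, ?_⟩
    · have : (1 - (ε : ℝ)) * numPerfectMatchings G ≤ (alg n (sz x.length) (dec x).1.2 us : ℕ) :=
        le_trans (mul_le_mul_of_nonneg_right (by linarith) hN) h1
      exact_mod_cast this
    · have : ((alg n (sz x.length) (dec x).1.2 us : ℕ) : ℝ) ≤ (1 + (ε : ℝ)) * numPerfectMatchings G :=
        h2.trans (mul_le_mul_of_nonneg_right (by linarith) hN)
      exact_mod_cast this

end Crest.Agent.S0464
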