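import Crest.Statements.S0505
import Crest.Agent.R327.Build

set_option autoImplicit false
universe u
open Crest Crest.LogicCS

namespace Crest.Agent.S0505

/-- For every field K and every n ≥ 2 there is a syntactically homogeneous depth-five sum-product circuit over K in the n³ matrix-entry variables (shared gates, unrestricted fan-in and bottom support) whose output is the top-left entry of the ordered product of the n variable matrices of order n and whose number of vertices, leaves included, is at most 2n³ + r·n² + r·n^(t+1) + n^(r−1) + 1 with t = ⌈√n⌉, r = ⌈n/t⌉, and also at most n^(√n + 4). Layers are indexed by initial segments of ℕ. -/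
theorem result (K : Type u) [Field K] (n : ℕ)
    (hn : 2 ≤ n) :
    ∃ (l b p s r : ℕ)
      (C : Crest.ArithCircuit.SPSPS K (Fin n × Fin n × Fin n) (Fin l) (Fin b) (Fin p) (Fin s) (Fin r)),
      C.IsHomogeneous ∧ C.output = Crest.ArithCircuit.imm K n ∧
        C.size ≤ 2 * n ^ 3 + ⌈(n : ℝ) / ⌈Real.sqrt n⌉₊⌉₊ * n ^ 2 +
          ⌈(n : ℝ) / ⌈Real.sqrt n⌉₊⌉₊ * n ^ (⌈Real.sqrt n⌉₊ + 1) +
          n ^ (⌈(n : ℝ) / ⌈Real.sqrt n⌉₊⌉₊ - 1) + 1 ∧
        (C.size : ℝ) ≤ (n : ℝ) ^ (Real.sqrt n + 4) := by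
  obtain ⟨m, rfl⟩ : ∃ m, n = m + 1 := ⟨n - 1, by omega⟩
  set x : ℝ := ((m + 1 : ℕ) : ℝ) with hx
  have hx2 : (2 : ℝ) ≤ x := by rw [hx]; exact_mod_cast hn
  set s := Real.sqrt x with hs
  have hss : s * s = x := Real.mul_self_sqrt (by linarith)
  have hs0 : 0 < s := Real.sqrt_pos.2 (by linarith)
  have hs1 : 1 < s := by nlinarith
  set t := ⌈s⌉₊ with ht
  have ht1 : s ≤ t := Nat.le_ceil _
  have ht2 : (t : ℝ) < s + 1 := Nat.ceil_lt_add_one hs0.le
  have ht0 : (0 : ℝ) < t := by linarith
  have ht0' : 0 < t := by exact_mod_cast ht0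
  set r := ⌈x / t⌉₊ with hr
  have hr1 : x / t ≤ r := Nat.le_ceil _
  have hr2 : (r : ℝ) < x / t + 1 := Nat.ceil_lt_add_one (by positivity)
  have hr0 : 0 < r := by
    have : (0 : ℝ) < r := lt_of_lt_of_le (by positivity) hr1
    exact_mod_cast this
  have hrt : m + 1 ≤ r * t := by
    rw [div_le_iff₀ ht0, hx] at hr1
    exact_mod_cast hr1
  have hxt : x / t ≤ s := by
    rw [div_le_iff₀ ht0]; nlinarith
  obtain ⟨r', hr'⟩ : ∃ r', r = r' + 1 := ⟨r - 1, by omega⟩
  obtain ⟨l, b, p, s', q, C, h1, h2, h3⟩ :=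
    Crest.Agent.R327.exists_circ K m r' t ht0' (by rw [← hr']; exact hrt)
  refine ⟨l, b, p, s', q, C, h1, h2, ?_, ?_⟩
  · rw [h3, hr']; simp
  · rw [h3]
    have hr3 : (r' : ℝ) < s := by
      rw [hr'] at hr2; push_cast at hr2; linarith
    rcases (show m = 1 ∨ 2 ≤ m by omega) with hm | hm
    · subst hm
      have hx' : x = 2 := by rw [hx]; norm_num
      have hs2 : s < 3 / 2 := by nlinarith
      have htt : t = 2 := by
        have a1 : (1 : ℝ) < t := by linarith
        have a2 : (t : ℝ) < 3 := by linarith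
        have a1' : 1 < t := by exact_mod_cast a1
        have a2' : t < 3 := by exact_mod_cast a2
        omega
      have hrr : r' = 0 := by
        rw [htt, hx', hr'] at hr2
        have : (r' : ℝ) < 1 := by push_cast at hr2; linarith
        have : r' < 1 := by exact_mod_cast this
        omega
      rw [htt, hrr, hx']
      calc _ ≤ (2 : ℝ) ^ ((5 : ℕ) : ℝ) := by rw [Real.rpow_natCast]; norm_num
        _ ≤ _ := Real.rpow_le_rpow_of_exponent_le (by norm_num) (by push_cast; linarith)
    · have hx3 : (3 : ℝ) ≤ x := by rw [hx]; exact_mod_cast (by omega : 3 ≤ m + 1)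
      have hx1 : (1 : ℝ) ≤ x := by linarith
      have hsx : s + 1 ≤ x := by nlinarith
      have hrx : (r' : ℝ) + 1 ≤ x := by linarith
      have hW : x ^ (s + 4) = x * x ^ (s + 3) := by
        rw [show s + 4 = 1 + (s + 3) by ring, Real.rpow_add (by linarith), Real.rpow_one]
      have e1 : x ^ 4 ≤ x ^ (s + 3) := by
        rw [← Real.rpow_natCast]
        exact Real.rpow_le_rpow_of_exponent_le hx1 (by push_cast; linarith)
      have e2 : x ^ (t + 2) ≤ x ^ (s + 3) := by
        rw [← Real.rpow_natCast]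
        exact Real.rpow_le_rpow_of_exponent_le hx1 (by push_cast; linarith)
      have e3 : x ^ (r' + 1) ≤ x ^ (s + 3) := by
        rw [← Real.rpow_natCast]
        exact Real.rpow_le_rpow_of_exponent_le hx1 (by push_cast; linarith)
      push_cast
      have hxx : (m : ℝ) + 1 = x := by rw [hx]; push_cast; rfl
      rw [hxx, hW]
      have f1 : 2 * x ^ 3 + ((r' : ℝ) + 1) * x ^ 2 ≤ x ^ 4 := by
        have : ((r' : ℝ) + 1) * x ^ 2 ≤ x * x ^ 2 := by gcongr
        have h0 : 0 ≤ x ^ 3 := by positivity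
        nlinarith
      have f2 : ((r' : ℝ) + 1) * x ^ (t + 1) ≤ x ^ (t + 2) := by
        calc _ ≤ x * x ^ (t + 1) := by gcongr
          _ = _ := by ring
      have f3 : x ^ r' + 1 ≤ x ^ (r' + 1) := by
        have : 1 ≤ x ^ r' := one_le_pow₀ hx1
        rw [pow_succ]; nlinarith
      have h0 : 0 ≤ x ^ (s + 3) := by positivity
      nlinarith

end Crest.Agent.S0505
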