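import Crest.Statements.S0554
import Crest.Agent.R350.Core
import Crest.Agent.R350.InstL
import Crest.Agent.R350.Cost
import Crest.Agent.R350.QFinal

set_option autoImplicit false
open Crest.MathPhysics.Query
open Crest Crest.MathPhysics

namespace Crest.Agent.S0554

/-- For every `k ≥ 2` there are constants `c, C, b > 0` such that for every large enough power of four `m` some total Boolean function on finitely many bits has a quantum query algorithm with at most `C √m (log m)^b` queries and error at most `1/3` on every input, while every randomized algorithm with error at most `1/3` on every input reads at least `c m^{2 - 1/k} / (log m)^2` bits on some input. So no power below four bounds randomized by quantum query complexity. -/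
theorem result (k : ℕ) (hk : 2 ≤ k) :
    ∃ (c C b : ℝ), 0 < c ∧ 0 < C ∧ 0 < b ∧ ∃ m₀ : ℕ, ∀ m : ℕ, m₀ ≤ m → (∃ j : ℕ, m = 4 ^ j) →
      ∃ (n : ℕ) (F : (Fin n → Bool) → Bool),
        (∃ q : ℕ, (q : ℝ) ≤ C * Real.sqrt m * Real.log m ^ b ∧ QuantumComputes F q) ∧
        (∀ r : ℕ, RandomizedComputes F r →
          c * (m : ℝ) ^ (2 - 1 / (k : ℝ)) / Real.log m ^ 2 ≤ r) := by
  classical
  open Crest.Agent.R350 in
  obtain ⟨A, hA, hcore⟩ := core k (by omega)
  set c₀ : ℕ := 1 + k + 256 * A ^ (2 * k) + A ^ k + 64 with hc₀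
  refine ⟨1 / 6, (c₀ : ℝ) ^ 19 * 2 ^ (19 * (2 * k + 1)), ((19 * (2 * k + 1) : ℕ) : ℝ),
    by norm_num, by positivity, by positivity, ?_⟩
  obtain ⟨n₀, hn₀⟩ := Filter.eventually_atTop.1 (hcore (2 * k + 3))
  refine ⟨4 ^ (n₀ + 5 * k + 4096 * A ^ (2 * k) + 1), ?_⟩
  rintro m hm ⟨j, rfl⟩
  have hj : n₀ + 5 * k + 4096 * A ^ (2 * k) + 1 ≤ j :=
    (Nat.pow_le_pow_iff_right (by norm_num)).1 hm
  set n := 2 * j with hn
  have hn0 : 0 < n := by omega
  have h4 : 4 ^ j = 2 ^ n := by rw [hn, pow_mul]; norm_num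
  obtain ⟨μ, hμ1, hμ2, hμ3⟩ := hn₀ n (by omega)
  set Δ := (A * n) ^ k with hΔ
  have hΔ0 : 0 < Δ := by positivity
  set T := 256 * n * Δ ^ 2 with hT
  have hT0 : 0 < T := by positivity
  let e : Fin (Fintype.card (Crest.Agent.R350.Idx n k T)) ≃ Crest.Agent.R350.Idx n k T :=
    (Fintype.equivFin _).symm
  have hlog : Real.log ((4 ^ j : ℕ) : ℝ) = n * Real.log 2 := by
    rw [h4]; push_cast; rw [Real.log_pow]
  have hl2 : (1 : ℝ) / 2 ≤ Real.log 2 := by have := Real.log_two_gt_d9; linarith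
  have hn2 : (2 : ℝ) ≤ n := by exact_mod_cast (show 2 ≤ n by omega)
  refine ⟨_, fun x' => Crest.Agent.R350.bigF n k T Δ fun i => x' (e.symm i), ?_, fun r hr => ?_⟩
  · obtain ⟨σ, hσ1, hσ2⟩ := Crest.Agent.R350.upper_inst n k T Δ hn0 hT0 hΔ0
    refine ⟨_, ?_, hσ1.quantumComputes e (Fintype.card_pos_iff.2
      ⟨(fun _ => false, Sum.inr (Sum.inl fun _ => false))⟩) _ hσ2⟩
    have pw : ∀ a : ℕ, a ≤ 2 * k + 1 → n ^ a ≤ n ^ (2 * k + 1) := fun a h =>
      Nat.pow_le_pow_right hn0 h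
    have hP : 2 * j + k + T + Δ + 64 ≤ c₀ * n ^ (2 * k + 1) := by
      have a0 : 1 ≤ n ^ (2 * k + 1) := Nat.one_le_pow _ _ hn0
      have a1 : n ≤ n ^ (2 * k + 1) := by simpa using pw 1 (by omega)
      have a2 : T = 256 * A ^ (2 * k) * n ^ (2 * k + 1) := by rw [hT, hΔ]; ring
      have a3 : Δ ≤ A ^ k * n ^ (2 * k + 1) := by
        rw [hΔ, mul_pow]; exact Nat.mul_le_mul_left _ (pw k (by omega))
      have a4 := Nat.mul_le_mul_left k a0
      rw [hc₀, ← hn]
      nlinarith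
    have h1 := Crest.Agent.R350.cost_le j k T Δ _ hP
    have h2 : Real.sqrt ((4 ^ j : ℕ) : ℝ) = 2 ^ j := by
      rw [Real.sqrt_eq_iff_mul_self_eq (by positivity) (by positivity), ← mul_pow]
      norm_num
    rw [h2, hlog, Real.rpow_natCast]
    have h3 : (n : ℝ) ≤ 2 * (n * Real.log 2) := by nlinarith
    calc _ ≤ (((c₀ * n ^ (2 * k + 1)) ^ 19 * 2 ^ j : ℕ) : ℝ) := by exact_mod_cast h1
      _ = (c₀ : ℝ) ^ 19 * (n : ℝ) ^ (19 * (2 * k + 1)) * 2 ^ j := by push_cast; ring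
      _ ≤ (c₀ : ℝ) ^ 19 * (2 * (n * Real.log 2)) ^ (19 * (2 * k + 1)) * 2 ^ j := by gcongr
      _ = _ := by rw [mul_pow]; ring
  · set D := Nat.nthRoot k ((2 ^ n) ^ (k - 1)) with hD
    have hD1 : D ^ k ≤ (2 ^ n) ^ (k - 1) := Nat.pow_nthRoot_le (Or.inl (by omega))
    have hD2 : (2 ^ n) ^ (k - 1) < (D + 1) ^ k := Nat.lt_pow_nthRoot_add_one (by omega) _
    have hD3 : 32 * D ≤ 2 ^ n := by
      have a1 : 32 ^ k ≤ 2 ^ n := by
        rw [show 32 = 2 ^ 5 by norm_num, ← pow_mul]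
        exact Nat.pow_le_pow_right (by norm_num) (by omega)
      have a2 : (32 * D) ^ k ≤ (2 ^ n) ^ k := by
        rw [mul_pow]
        calc 32 ^ k * D ^ k ≤ 2 ^ n * (2 ^ n) ^ (k - 1) := Nat.mul_le_mul a1 hD1
          _ = (2 ^ n) ^ k := by rw [← pow_succ']; congr 1; omega
      exact (Nat.pow_le_pow_iff_left (by omega)).1 a2
    have key := Crest.Agent.R350.lower_inst n k T Δ D hT0 hΔ0 μ hμ1 hμ2 _ (hμ3 D hD1) (by
      have a2 : n * T = 256 * A ^ (2 * k) * n ^ (2 * k + 2) := by rw [hT, hΔ]; ring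
      have a3 : ((4096 * A ^ (2 * k) : ℕ) : ℝ) ≤ n := by exact_mod_cast (show _ ≤ n by omega)
      rw [a2, mul_one_div, div_le_div_iff₀ (by positivity) (by positivity), pow_succ _ (2 * k + 2)]
      push_cast at a3 ⊢
      have := mul_le_mul_of_nonneg_left a3 (show (0 : ℝ) ≤ (n : ℝ) ^ (2 * k + 2) by positivity)
      linarith) le_rfl hD3 e r hr
    have hk0 : (0 : ℝ) < k := by exact_mod_cast (show 0 < k by omega)
    have hM : (0 : ℝ) < ((4 ^ j : ℕ) : ℝ) := by positivity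
    have b1 : ((4 ^ j : ℕ) : ℝ) ^ (1 - 1 / (k : ℝ)) ≤ (D : ℝ) + 1 := by
      refine le_of_pow_le_pow_left₀ (n := k) (by omega) (by positivity) ?_
      rw [← Real.rpow_natCast, ← Real.rpow_mul hM.le]
      have : (1 - 1 / (k : ℝ)) * k = ((k - 1 : ℕ) : ℝ) := by
        rw [Nat.cast_sub (by omega)]; field_simp; norm_num
      rw [this, Real.rpow_natCast, h4]
      exact_mod_cast hD2.le
    have b2 : ((4 ^ j : ℕ) : ℝ) ^ (2 - 1 / (k : ℝ)) ≤ 6 * r := by
      rw [show (2 - 1 / (k : ℝ)) = 1 + (1 - 1 / (k : ℝ)) by ring, Real.rpow_add hM, Real.rpow_one]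
      refine (mul_le_mul_of_nonneg_left b1 hM.le).trans ?_
      rw [h4]
      exact_mod_cast key
    have b3 : 1 ≤ Real.log ((4 ^ j : ℕ) : ℝ) ^ 2 := by
      rw [hlog]
      exact one_le_pow₀ (by nlinarith)
    rw [div_le_iff₀ (by linarith)]
    have : (0 : ℝ) ≤ r := by positivity
    nlinarith

end Crest.Agent.S0554
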